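import Vale.Agent.P004H.H404.Crv11
import Vale.Agent.P004H.H404.Rank11

/-!
# P004: the coefficient system of the twist of `X_0(17)` by the discriminant `-68`

The bad primes of `E^(-68)` are `2` and `17`, both additive, so the theta series of its twists by
`m ≡ 1 mod 136` have exact functional equations.
-/

open Real MeasureTheory Set
open scoped NumberTheorySymbols

namespace P004H26

open P004G P004G.ML
open Vale.Agent.P004H.H742 (kron k2 kron_one kron_odd kron_two_pow kron_mul kron_pow jac_zero jac_sq)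
open P004H (kron_prime_dvd kron_prime_sq kron_sq_cop kron_Dm tw)

/-- `A` is the sequence of Dirichlet coefficients of `X_0(17)` -/
structure Co (A : ℕ → ℤ) : Prop where
  zero : A 0 = 0
  one : A 1 = 1
  mul : ∀ m n : ℕ, m.Coprime n → A (m * n) = A m * A n
  good : ∀ p : ℕ, p.Prime → p ≠ 17 → GoodAt A p
  el : ∀ k : ℕ, A (17 ^ k) = 1

lemma tw_one {A : ℕ → ℤ} (hA : Co A) (D : ℤ) : tw A D 1 = 1 := by
  unfold tw; rw [hA.one, kron_one, one_mul]

lemma tw_mul {A : ℕ → ℤ} (hA : Co A) (D : ℤ) (m n : ℕ) (h : m.Coprime n) :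
    tw A D (m * n) = tw A D m * tw A D n := by
  unfold tw
  rcases eq_or_ne m 0 with rfl | hm
  · rw [zero_mul, hA.zero, zero_mul, zero_mul]
  rcases eq_or_ne n 0 with rfl | hn
  · rw [mul_zero, hA.zero, zero_mul, mul_zero]
  rw [hA.mul m n h, kron_mul D hm hn]
  ring

lemma tw_good {A : ℕ → ℤ} (hA : Co A) {D : ℤ} {p : ℕ} (hp : p.Prime) (h11 : p ≠ 17)
    (h : ¬ (p : ℤ) ∣ D) (k : ℕ) :
    tw A D (p ^ (k + 2)) = tw A D p * tw A D (p ^ (k + 1)) - p * tw A D (p ^ k) := by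
  have h2 := kron_prime_sq hp h
  unfold tw
  rw [kron_pow D hp.ne_zero, kron_pow D hp.ne_zero, kron_pow D hp.ne_zero,
    hA.good p hp h11 k]
  have e : kron D p ^ (k + 2) = kron D p ^ k := by
    rw [pow_add, h2, mul_one]
  have e' : kron D p * kron D p ^ (k + 1) = kron D p ^ k := by
    rw [← pow_succ']
    exact e
  calc (A p * A (p ^ (k + 1)) - p * A (p ^ k)) * kron D p ^ (k + 2)
      = A p * A (p ^ (k + 1)) * kron D p ^ k - p * (A (p ^ k) * kron D p ^ k) := by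
        rw [e]; ring
    _ = _ := by rw [← e']; ring

theorem ldT {A : ℕ → ℤ} (hA : Co A) (hH : ∀ p : ℕ, p.Prime → (A p) ^ 2 ≤ 4 * p) (D : ℤ) :
    LD (tw A D) where
  zero := by unfold tw; rw [hA.zero, zero_mul]
  one := tw_one hA D
  mul := tw_mul hA D
  loc := by
    intro p hp
    by_cases hd : (p : ℤ) ∣ D
    · right
      have h0 := kron_prime_dvd hp hd
      refine ⟨fun k => ?_, ?_⟩
      · have e : kron D (p ^ (k + 1)) = 0 := by
          rw [kron_pow D hp.ne_zero, h0, zero_pow (Nat.succ_ne_zero k)]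
        unfold tw
        rw [e, h0, mul_zero, mul_zero, zero_mul]
      · unfold tw
        rw [h0, mul_zero, abs_zero]
        norm_num
    · by_cases h11 : p = 17
      · right
        subst h11
        have h2 := kron_prime_sq hp hd
        refine ⟨fun k => ?_, ?_⟩
        · unfold tw
          have e1 := hA.el 1
          rw [pow_one] at e1
          rw [kron_pow D hp.ne_zero, kron_pow D hp.ne_zero, hA.el, hA.el, e1, pow_succ]
          ring
        · unfold tw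
          have e1 := hA.el 1
          rw [pow_one] at e1
          rw [e1, one_mul]
          exact (sq_le_one_iff_abs_le_one _).1 h2.le
      · left
        refine ⟨tw_good hA hp h11 hd, ?_⟩
        unfold tw
        rw [mul_pow, kron_prime_sq hp hd, mul_one]
        exact hH p hp

lemma dvd22 {p : ℕ} (hp : p.Prime) (h : p ∣ 34) : p = 2 ∨ p = 17 := by
  have h1 : p ∣ 2 * 17 := by simpa using h
  rcases (Nat.Prime.dvd_mul hp).1 h1 with h | h
  · exact Or.inl ((Nat.prime_dvd_prime_iff_eq hp (by norm_num)).1 h)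
  · exact Or.inr ((Nat.prime_dvd_prime_iff_eq hp (by norm_num)).1 h)

lemma tw44_bad {A : ℕ → ℤ} (hA : Co A) {n : ℕ} (h : ¬ n.Coprime 34) : tw A (-68) n = 0 := by
  rcases eq_or_ne n 0 with rfl | hn
  · unfold tw; rw [hA.zero, zero_mul]
  obtain ⟨p, hp, hp1, hp2⟩ := Nat.Prime.not_coprime_iff_dvd.1 h
  obtain ⟨m, rfl⟩ := hp1
  have hm : m ≠ 0 := fun h0 => hn (by rw [h0, mul_zero])
  unfold tw
  rw [kron_mul (-68) hp.ne_zero hm, kron_prime_dvd hp, zero_mul, mul_zero]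
  rcases dvd22 hp hp2 with rfl | rfl <;> norm_num

/-- the coefficient system of `E^((-68))` -/
@[reducible] noncomputable def crv11 {A : ℕ → ℤ} (hA : Co A)
    (hH : ∀ p : ℕ, p.Prime → (A p) ^ 2 ≤ 4 * p) : Crv where
  bd := 34
  bd_ne := by norm_num
  two_dvd := ⟨17, rfl⟩
  c := tw A (-68)
  c_one := tw_one hA (-68)
  c_bad _ hn := tw44_bad hA hn
  c_mul m n h := tw_mul hA (-68) m n h
  c_hecke p k hp hb := by
    have h11 : p ≠ 17 := by rintro rfl; exact hb ⟨2, rfl⟩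
    have h2 : p ≠ 2 := by rintro rfl; exact hb ⟨17, rfl⟩
    refine tw_good hA hp h11 ?_ k
    intro h
    have h3 : p ∣ 68 := by
      have h' : ((p : ℕ) : ℤ) ∣ ((68 : ℕ) : ℤ) := (dvd_neg).1 (by simpa using h)
      exact_mod_cast h'
    have h4 : p ∣ 2 ^ 2 * 17 := by simpa using h3
    rcases (Nat.Prime.dvd_mul hp).1 h4 with h5 | h5
    · exact h2 ((Nat.prime_dvd_prime_iff_eq hp Nat.prime_two).1 (hp.dvd_of_dvd_pow h5))
    · exact h11 ((Nat.prime_dvd_prime_iff_eq hp (by norm_num)).1 h5)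
  c_bound n := P004G.pfLbound _ (ldT hA hH (-68)) n

/-- the functional equations of the twists of `X_0(17)` -/
structure FE11 (A : ℕ → ℤ) : Prop where
  out : ∀ D : ℤ, Fund1 D → ¬ (17 : ℤ) ∣ D → ∃ κ : ℝ, FEq (tw A D) (17 * (D : ℝ) ^ 2 / 4) κ
  inn : ∀ D : ℤ, Fund1 D → (17 : ℤ) ∣ D → FEq (tw A D) ((D : ℝ) ^ 2 / 4) (-((D.sign : ℤ) : ℝ))

lemma cop22 {n : ℕ} (hn : n.Coprime 34) : n % 2 = 1 ∧ ¬ 17 ∣ n ∧ n ≠ 0 := by
  have h1 : n.Coprime 2 := hn.coprime_dvd_right ⟨17, rfl⟩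
  have h2 : n.Coprime 17 := hn.coprime_dvd_right ⟨2, rfl⟩
  refine ⟨?_, ?_, ?_⟩
  · rw [Nat.coprime_two_right] at h1
    exact Nat.odd_iff.1 h1
  · intro h
    have := Nat.Coprime.eq_one_of_dvd (Nat.Coprime.symm h2) h
    omega
  · rintro rfl
    rw [Nat.coprime_zero_left] at h1
    omega

lemma kron44 {n : ℕ} (hn : n % 2 = 1) : kron (-68) n = jacobiSym (-17) n := by
  have : ((-68) : ℤ) = Dm (-17) := by unfold Dm; norm_num
  rw [this, kron_Dm (-17) hn]

lemma jac11_sq {n : ℕ} (hn : n.Coprime 34) : jacobiSym (-17) n ^ 2 = 1 := by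
  apply jacobiSym.sq_one
  obtain ⟨h1, h2, h3⟩ := cop22 hn
  have h4 : n.Coprime 17 := hn.coprime_dvd_right ⟨2, rfl⟩
  rw [Int.gcd_comm, Int.gcd_neg]
  exact_mod_cast h4

/-- the squarefree part of `-17 m` -/
def s11 (m : ℤ) : ℤ := if (17 : ℤ) ∣ m then -(m / 17) else -17 * m

lemma prime_eleven_int : Prime (17 : ℤ) := by
  exact_mod_cast Nat.prime_iff_prime_int.1 (by norm_num : Nat.Prime 17)

lemma sqf_neg {m : ℤ} (h : Squarefree m) : Squarefree (-m) := by
  rw [← Int.squarefree_natAbs, Int.natAbs_neg, Int.squarefree_natAbs]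
  exact h

lemma s11_sqf {m : ℤ} (hm : Squarefree m) : Squarefree (s11 m) := by
  unfold s11
  split_ifs with h
  · obtain ⟨c, rfl⟩ := h
    rw [Int.mul_ediv_cancel_left _ (by norm_num)]
    exact sqf_neg hm.of_mul_right
  · rw [neg_mul]
    refine sqf_neg ?_
    rw [squarefree_mul_iff]
    refine ⟨?_, prime_eleven_int.squarefree, hm⟩
    exact ((Prime.coprime_iff_not_dvd prime_eleven_int).2 h).isRelPrime

lemma jac_s11 (m : ℤ) {n : ℕ} (hn : n.Coprime 34) :
    jacobiSym (s11 m) n = jacobiSym (-17) n * jacobiSym m n := by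
  unfold s11
  split_ifs with h
  · obtain ⟨c, rfl⟩ := h
    rw [Int.mul_ediv_cancel_left _ (by norm_num)]
    have e : jacobiSym (-17) n * jacobiSym (17 * c) n =
        jacobiSym (-17) n ^ 2 * jacobiSym (-c) n := by
      rw [show (17 : ℤ) * c = (-17) * (-c) by ring, jacobiSym.mul_left]
      ring
    rw [e, jac11_sq hn, one_mul]
  · rw [jacobiSym.mul_left]

lemma abs_s11 (m : ℤ) : |(m : ℝ)| ≤ 17 * |(s11 m : ℝ)| ∧ |(s11 m : ℝ)| ≤ 17 * |(m : ℝ)| := by
  unfold s11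
  have h0 := abs_nonneg (m : ℝ)
  split_ifs with h
  · obtain ⟨c, rfl⟩ := h
    rw [Int.mul_ediv_cancel_left _ (by norm_num)]
    push_cast
    rw [abs_mul, abs_neg]
    have h1 := abs_nonneg (c : ℝ)
    have e : |(17 : ℝ)| = 17 := abs_of_pos (by norm_num)
    rw [e]
    constructor <;> nlinarith
  · push_cast
    rw [neg_mul, abs_neg, abs_mul]
    have e : |(17 : ℝ)| = 17 := abs_of_pos (by norm_num)
    rw [e]
    constructor <;> nlinarith

/-- **`StTF`** for `E^((-68))` -/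
theorem tf11 {A : ℕ → ℤ} (hA : Co A) (hH : ∀ p : ℕ, p.Prime → (A p) ^ 2 ≤ 4 * p)
    (hF : FE11 A) : @StTF (crv11 hA hH) := by
  let I : Crv := crv11 hA hH
  refine ⟨200, by norm_num, fun m hm => ?_⟩
  have hs := s11_sqf hm
  have hD := fund1_Dm hs
  set D := Dm (s11 m) with hDdef
  obtain ⟨d1, d2⟩ := abs_Dm (s11 m)
  obtain ⟨d3, d4⟩ := abs_s11 m
  have hm0 := abs_nonneg (m : ℝ)
  have hs0 := abs_nonneg (s11 m : ℝ)
  have hDlo : |(m : ℝ)| ≤ 17 * |(D : ℝ)| := by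
    rw [hDdef]; linarith
  have hDhi : |(D : ℝ)| ≤ 68 * |(m : ℝ)| := by
    rw [hDdef]; linarith
  have hD0 := abs_nonneg (D : ℝ)
  have hsq1 : (m : ℝ) ^ 2 ≤ 289 * (D : ℝ) ^ 2 := by
    rw [← sq_abs (m : ℝ), ← sq_abs (D : ℝ)]
    nlinarith
  have hsq2 : (D : ℝ) ^ 2 ≤ 4624 * (m : ℝ) ^ 2 := by
    rw [← sq_abs (m : ℝ), ← sq_abs (D : ℝ)]
    nlinarith
  have hcoef : ∀ n : ℕ, n.Coprime bd → tw A D n = ca n * jacobiSym m n := by
    intro n hn
    have hn' : n.Coprime 34 := hn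
    obtain ⟨h1, h2, h3⟩ := cop22 hn'
    change tw A D n = tw A (-68) n * jacobiSym m n
    unfold tw
    rw [hDdef, kron_Dm _ h1, kron44 h1, jac_s11 m hn', mul_assoc]
  have key : ∀ q κ : ℝ, FEq (tw A D) q κ → (D : ℝ) ^ 2 / 4 ≤ q → q ≤ 17 * (D : ℝ) ^ 2 / 4 →
      ∃ (A' : ℕ → ℤ) (q κ : ℝ), LD A' ∧ FEq A' q κ ∧
        (∀ n : ℕ, n.Coprime bd → A' n = ca n * jacobiSym m n) ∧
        |(m : ℝ)| / (200 : ℕ) ≤ √q ∧ √q ≤ (200 : ℕ) * |(m : ℝ)| := by
    intro q κ hq h1 h2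
    refine ⟨tw A D, q, κ, ldT hA hH D, hq, hcoef, ?_, ?_⟩
    · apply Real.le_sqrt_of_sq_le
      rw [div_pow, sq_abs]
      push_cast
      rw [div_le_iff₀ (by norm_num)]
      nlinarith [sq_nonneg (D : ℝ)]
    · push_cast
      rw [Real.sqrt_le_left (by positivity), mul_pow, sq_abs]
      nlinarith [sq_nonneg (m : ℝ)]
  by_cases h : (17 : ℤ) ∣ D
  · refine key _ _ (hF.inn D hD h) le_rfl ?_
    nlinarith [sq_nonneg (D : ℝ)]
  · obtain ⟨κ, hκ⟩ := hF.out D hD h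
    refine key _ _ hκ ?_ le_rfl
    nlinarith [sq_nonneg (D : ℝ)]

/-! ### the class `m ≡ 1 mod 136`, `m < 0` -/

/-- for `m ≡ 1 mod 136` the twist by `(-68) m` is the twist of `E^((-68))` by `m`, at all `n` -/
lemma tw_class {A : ℕ → ℤ} (hA : Co A) (hH : ∀ p : ℕ, p.Prime → (A p) ^ 2 ≤ 4 * p) (m : ℤ)
    (n : ℕ) : tw A ((-68) * m) n = (crv11 hA hH).c n * jacobiSym m n := by
  change tw A ((-68) * m) n = tw A (-68) n * jacobiSym m n
  by_cases hn : n.Coprime 34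
  · obtain ⟨h1, h2, h3⟩ := cop22 hn
    unfold tw
    rw [kron_odd _ h1, kron_odd _ h1, jacobiSym.mul_left, mul_assoc]
  · rw [tw44_bad hA hn, zero_mul]
    rcases eq_or_ne n 0 with rfl | hn0
    · unfold tw; rw [hA.zero, zero_mul]
    obtain ⟨p, hp, hp1, hp2⟩ := Nat.Prime.not_coprime_iff_dvd.1 hn
    obtain ⟨k, rfl⟩ := hp1
    have hk : k ≠ 0 := fun h0 => hn0 (by rw [h0, mul_zero])
    unfold tw
    rw [kron_mul _ hp.ne_zero hk, kron_prime_dvd hp, zero_mul, mul_zero]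
    apply Dvd.dvd.mul_right
    rcases dvd22 hp hp2 with rfl | rfl <;> norm_num

lemma fund44 {m : ℤ} (hm : Squarefree m) (h1 : m % 136 = 1) : P004.IsFund ((-68) * m) := by
  refine ⟨by omega, Or.inr ⟨-(17 * m), by ring, Or.inr (by omega), ?_⟩⟩
  refine sqf_neg ?_
  rw [squarefree_mul_iff]
  refine ⟨?_, prime_eleven_int.squarefree, hm⟩
  refine ((Prime.coprime_iff_not_dvd prime_eleven_int).2 ?_).isRelPrime
  omega

/-- **the class**: for squarefree `m < 0`, `m ≡ 1 mod 136`, the twist of `X_0(17)` by the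
fundamental discriminant `(-68) m` has odd analytic rank, and the theta series of `crv11` has the
functional equation with sign `-1` and conductor parameter `1156 m²`. -/
theorem class11 {A : ℕ → ℤ} (hA : Co A) (hH : ∀ p : ℕ, p.Prime → (A p) ^ 2 ≤ 4 * p)
    {a₀ b₀ : ℤ} (hLT : ∀ D : ℤ, Fund1 D → ∀ n : ℕ, LA (a₀ * D ^ 2) (b₀ * D ^ 3) n = A n * kron D n)
    (hF : FE11 A) {m : ℤ} (hm : Squarefree m) (hs : m.sign = -1) (h1 : m % 136 = 1) :
    @P004E.Fin.FE (crv11 hA hH) m (1156 * (m : ℝ) ^ 2) ∧ P004.IsFund ((-68) * m) ∧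
      Odd (aRk a₀ b₀ ((-68) * m)) ∧
      @Van (crv11 hA hH) m (aRk a₀ b₀ ((-68) * m)) := by
  let I : Crv := crv11 hA hH
  have hfund := fund44 hm h1
  have hfund1 : Fund1 ((-68) * m) := Or.inr hfund
  have h11 : (17 : ℤ) ∣ (-68) * m := Dvd.dvd.mul_right ⟨-4, by norm_num⟩ m
  have hm0 : m ≠ 0 := hm.ne_zero
  have hfe0 := hF.inn ((-68) * m) hfund1 h11
  have hsgn : ((-68) * m).sign = 1 := by rw [Int.sign_mul, hs]; rfl
  rw [hsgn] at hfe0
  have eq : ((((-68) * m : ℤ) : ℝ)) ^ 2 / 4 = 1156 * (m : ℝ) ^ 2 := by push_cast; ring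
  rw [eq] at hfe0
  have hfe : FEq (tw A ((-68) * m)) (1156 * (m : ℝ) ^ 2) (-1) := by simpa using hfe0
  have hLD := ldT hA hH ((-68) * m)
  have hid : ∀ n, tw A ((-68) * m) n =
      LA (a₀ * ((-68) * m) ^ 2) (b₀ * ((-68) * m) ^ 3) n := fun n => (hLT _ hfund1 n).symm
  have hpar := P004.QN.rank_parity P004G.pfLent P004G.pfLparity hid hLD hfe
  have hodd : Odd (aRk a₀ b₀ ((-68) * m)) := by
    rw [← Nat.not_even_iff_odd, ← hpar]
    norm_num
  obtain ⟨L, hL, hU⟩ := P004G.pfLent _ _ _ hLD hfe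
  have hA' : tw A ((-68) * m) = LA (a₀ * ((-68) * m) ^ 2) (b₀ * ((-68) * m) ^ 3) := funext hid
  have hrk : aRk a₀ b₀ ((-68) * m) = analyticOrderNatAt L 1 := by
    have hLD' := hLD
    rw [hA'] at hL hU hLD'
    have hLT' : IsLT a₀ b₀ ((-68) * m) L := (P004G.isLT_iff hLD').2 hL
    have hUT : ∀ L', IsLT a₀ b₀ ((-68) * m) L' → L' = L :=
      fun L' h' => hU L' ((P004G.isLT_iff hLD').1 h')
    unfold aRk
    have hex : ∃ L, IsLT a₀ b₀ ((-68) * m) L := ⟨L, hLT'⟩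
    rw [dif_pos hex, hUT _ hex.choose_spec]
  have hth : ∀ u : ℝ, P004G.theta m u = TH (tw A ((-68) * m)) u := by
    intro u
    unfold P004G.theta TH
    congr 1
    apply tsum_congr
    intro n
    rw [tw_class hA hH m n]
    unfold P004.chi
    push_cast
    rfl
  refine ⟨⟨by positivity, fun u hu => ?_⟩, hfund, hodd, ?_⟩
  · have h5 := hfe.2.2 u hu
    rw [hth, hth]
    exact h5
  · rw [hrk]
    exact P004G.pfVan1 m _ _ _ L hLD hfe hL (fun n _ => tw_class hA hH m n)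

end P004H26
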