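import Vale.Agent.P004.H26.FE17

/-!
# P004, `X_0(17)`: the form of level `17` on the upper half plane
-/

open UpperHalfPlane hiding I
open Complex Filter Topology CongruenceSubgroup
open scoped Real MatrixGroups

namespace Vale.Agent.P004.H26.H792

open Vale.Agent.P014.H70 (r3 Th3)
open Vale.Agent.P014.H687 (an T3 F_form' an_zero)

/-- the coefficients -/
noncomputable def a (n : ℕ) : ℤ := an r3 n

/-- the form -/
noncomputable def Fc (z : ℂ) : ℂ := Vale.Agent.P014.H687.Fc Th3 z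

/-- `exp (2 π i z)` -/
noncomputable def qq (z : ℂ) : ℂ := cexp (2 * π * I * z)

theorem norm_qq (z : ℂ) : ‖qq z‖ = Real.exp (-(2 * π * z.im)) := by
  unfold qq
  rw [Complex.norm_exp]
  congr 1
  simp

theorem a_zero : a 0 = 0 := an_zero T3

theorem a_one : a 1 = 1 := Vale.Agent.P014.H687.an_one T3

theorem hasSum_Fc {z : ℂ} (hz : 0 < z.im) : HasSum (fun n : ℕ => (a n : ℂ) * qq z ^ n) (Fc z) :=
  (F_form' T3).sum z hz

theorem Fc_diff {z : ℂ} (hz : 0 < z.im) : DifferentiableAt ℂ Fc z :=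
  ((F_form' T3).hasDerivAt hz).differentiableAt

theorem Fc_W {z : ℂ} (hz : 0 < z.im) : Fc (-1 / (17 * z)) = -17 * z ^ 2 * Fc z :=
  (F_form' T3).W z hz

/-- the form on the upper half plane -/
noncomputable def F (z : ℍ) : ℂ := Fc z

theorem F_eq (z : ℍ) : F z = Fc z := rfl

/-- the slash action, in the form used -/
theorem F_mob (g : SL(2, ℤ)) (hg : g ∈ Gamma0 17) (z : ℍ) :
    F (g • z) = F z * denom g z ^ 2 := by
  rw [Gamma0_mem, ZMod.intCast_zmod_eq_zero_iff_dvd] at hg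
  obtain ⟨c, hc⟩ := hg
  have hc' : g 1 0 = 17 * c := by exact_mod_cast hc
  have hdet : g 0 0 * g 1 1 - g 0 1 * (17 * c) = 1 := by
    have := g.2
    rw [Matrix.det_fin_two] at this
    rw [← hc']
    exact this
  have h := (F_form' T3).mob (g 0 0) (g 0 1) c (g 1 1) hdet z z.2
  have e : ((17 * c : ℤ) : ℂ) = ((g 1 0 : ℤ) : ℂ) := by rw [hc']
  rw [e] at h
  have h1 : ((g • z : ℍ) : ℂ) =
      (((g 0 0 : ℤ) : ℂ) * z + ((g 0 1 : ℤ) : ℂ)) / (((g 1 0 : ℤ) : ℂ) * z + ((g 1 1 : ℤ) : ℂ)) := by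
    rw [UpperHalfPlane.coe_specialLinearGroup_apply]
    simp
  rw [F_eq, F_eq, h1, ModularGroup.denom_apply]
  unfold Fc
  rw [h]
  ring

theorem F_cont : Continuous F := by
  rw [continuous_iff_continuousAt]
  intro z
  exact ((Fc_diff z.2).continuousAt).comp UpperHalfPlane.continuous_coe.continuousAt

end Vale.Agent.P004.H26.H792
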