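import Vale.Agent.P004.H26.R.Inv
import Vale.Agent.P004H.H792.Pars

/-!
# P004, `X_0(17)`: Parseval for `F`
-/

open UpperHalfPlane hiding I
open Complex Filter Topology MeasureTheory Set
open scoped Real

namespace Vale.Agent.P004.H26.H792

open Vale.Agent.P004H.H792 (pars_gen)

theorem norm_term (n : ℕ) (x y : ℝ) : (a n : ℂ) * qq (x + y * I) ^ n =
    (((a n : ℝ) * Real.exp (-(2 * π * n * y)) : ℝ) : ℂ) * cexp (2 * π * I * n * x) := by
  rw [qq, ← exp_nat_mul]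
  push_cast
  rw [mul_assoc (a n : ℂ) (cexp (-(2 * π * n * y))) _, ← exp_add]
  congr 2
  linear_combination (2 * π * n * y) * I_sq

theorem summable_abs {y : ℝ} (hy : 0 < y) :
    Summable fun n : ℕ => |(a n : ℝ) * Real.exp (-(2 * π * n * y))| := by
  have h := (hasSum_Fc (z := (0 : ℝ) + y * I) (by simpa using hy)).summable.norm
  refine h.congr fun n => ?_
  rw [norm_term, ofReal_zero, mul_zero, exp_zero, mul_one, norm_real, Real.norm_eq_abs]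

theorem Fc_exp {y : ℝ} (hy : 0 < y) (x : ℝ) : Fc (x + y * I) =
    ∑' n : ℕ, (((a n : ℝ) * Real.exp (-(2 * π * n * y)) : ℝ) : ℂ) * cexp (2 * π * I * n * x) := by
  rw [← (hasSum_Fc (z := x + y * I) (by simpa using hy)).tsum_eq]
  exact tsum_congr fun n => norm_term n x y

/-- **Parseval** -/
theorem pars {y : ℝ} (hy : 0 < y) :
    Summable (fun n : ℕ => (a n : ℝ) ^ 2 * Real.exp (-(4 * π * n * y))) ∧
      ∫ x in (0 : ℝ)..1, ‖Fc (x + y * I)‖ ^ 2 =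
        ∑' n : ℕ, (a n : ℝ) ^ 2 * Real.exp (-(4 * π * n * y)) := by
  obtain ⟨h1, h2⟩ := pars_gen (summable_abs hy)
  have h3 : ∀ n : ℕ, ((a n : ℝ) * Real.exp (-(2 * π * n * y))) ^ 2 =
      (a n : ℝ) ^ 2 * Real.exp (-(4 * π * n * y)) := by
    intro n
    rw [mul_pow, ← Real.exp_nat_mul]
    congr 2
    push_cast
    ring
  simp only [h3] at h1 h2
  refine ⟨h1, ?_⟩
  rw [← h2]
  refine intervalIntegral.integral_congr fun x _ => ?_
  rw [Fc_exp hy]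

/-- `|F z| ≤ C / Im z` -/
theorem F_bound : ∃ C : ℝ, 0 < C ∧ ∀ z : ℂ, 0 < z.im → ‖Fc z‖ ≤ C / z.im := by
  obtain ⟨C, hC, h⟩ := H833.F_le
  refine ⟨C, hC, fun z hz => ?_⟩
  have h1 := h ⟨z, hz⟩
  rw [F_eq] at h1
  rw [le_div_iff₀ hz]
  exact h1

/-- **`∑_{n ≤ X} a(n)² ≤ C X²`** -/
theorem sq_sum : ∃ C : ℝ, 0 < C ∧ ∀ X : ℝ, 1 ≤ X →
    ∑ n ∈ Finset.Icc 1 ⌊X⌋₊, (a n : ℝ) ^ 2 ≤ C * X ^ 2 := by
  obtain ⟨C, hC, h⟩ := F_bound
  refine ⟨Real.exp (4 * π) * C ^ 2, by positivity, fun X hX => ?_⟩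
  have hX0 : 0 < X := by linarith
  have hy : 0 < 1 / X := by positivity
  obtain ⟨h1, h2⟩ := pars hy
  have h3 : ∫ x in (0 : ℝ)..1, ‖Fc (x + (1 / X : ℝ) * I)‖ ^ 2 ≤ (C * X) ^ 2 := by
    have h4 : ∀ x : ℝ, ‖Fc (x + (1 / X : ℝ) * I)‖ ^ 2 ≤ (C * X) ^ 2 := by
      intro x
      have him : ((x : ℂ) + (1 / X : ℝ) * I).im = 1 / X := by simp
      have h5 := h (x + (1 / X : ℝ) * I) (by rw [him]; exact hy)
      rw [him] at h5
      have h6 : C / (1 / X) = C * X := by field_simp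
      rw [h6] at h5
      exact pow_le_pow_left₀ (norm_nonneg _) h5 2
    have h7 : ∫ x in (0 : ℝ)..1, ‖Fc (x + (1 / X : ℝ) * I)‖ ^ 2 ≤
        ∫ x in (0 : ℝ)..1, (C * X) ^ 2 := by
      refine intervalIntegral.integral_mono_on zero_le_one ?_ (by simp) fun x _ => h4 x
      refine ContinuousOn.intervalIntegrable fun x _ => ContinuousAt.continuousWithinAt ?_
      have h8 : ContinuousAt Fc (x + (1 / X : ℝ) * I) :=
        (Fc_diff (by simpa using hX0)).continuousAt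
      have h9 : ContinuousAt (fun x : ℝ => Fc (x + (1 / X : ℝ) * I)) x :=
        ContinuousAt.comp (f := fun x : ℝ => (x : ℂ) + (1 / X : ℝ) * I) h8 (by fun_prop)
      exact h9.norm.pow 2
    simpa using h7
  have h10 : ∑ n ∈ Finset.Icc 1 ⌊X⌋₊, (a n : ℝ) ^ 2 * Real.exp (-(4 * π * n * (1 / X))) ≤
      (C * X) ^ 2 := by
    refine le_trans ?_ h3
    rw [h2]
    exact h1.sum_le_tsum _ fun n _ => by positivity
  have h11 : ∑ n ∈ Finset.Icc 1 ⌊X⌋₊, (a n : ℝ) ^ 2 * Real.exp (-(4 * π)) ≤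
      ∑ n ∈ Finset.Icc 1 ⌊X⌋₊, (a n : ℝ) ^ 2 * Real.exp (-(4 * π * n * (1 / X))) := by
    refine Finset.sum_le_sum fun n hn => ?_
    rw [Finset.mem_Icc] at hn
    have h12 : (n : ℝ) ≤ X := (Nat.le_floor_iff hX0.le).1 hn.2
    have h13 : (n : ℝ) * (1 / X) ≤ 1 := by
      rw [mul_one_div, div_le_one hX0]
      exact h12
    refine mul_le_mul_of_nonneg_left (Real.exp_le_exp.2 ?_) (by positivity)
    have h14 := Real.pi_pos
    nlinarith
  rw [← Finset.sum_mul] at h11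
  have h15 : Real.exp (4 * π) * Real.exp (-(4 * π)) = 1 := by
    rw [← Real.exp_add, add_neg_cancel, Real.exp_zero]
  calc ∑ n ∈ Finset.Icc 1 ⌊X⌋₊, (a n : ℝ) ^ 2
      = Real.exp (4 * π) * ((∑ n ∈ Finset.Icc 1 ⌊X⌋₊, (a n : ℝ) ^ 2) * Real.exp (-(4 * π))) := by
        rw [mul_comm (∑ n ∈ Finset.Icc 1 ⌊X⌋₊, (a n : ℝ) ^ 2), ← mul_assoc, h15, one_mul]
    _ ≤ Real.exp (4 * π) * (C * X) ^ 2 :=
        mul_le_mul_of_nonneg_left (h11.trans h10) (Real.exp_pos _).le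
    _ = Real.exp (4 * π) * C ^ 2 * X ^ 2 := by ring

end Vale.Agent.P004.H26.H792
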