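import Vale.Agent.P004.H26.R.Rank
import Vale.Agent.P004H.H404.ModW
import Vale.Agent.P004.H26.Par17
import Vale.Agent.P004.H26.All17
import Vale.Agent.P004.H26.R.StMert
import Vale.Agent.P004.H26.R.N1
import Vale.Agent.P004.H26.R.Landau
import Vale.Agent.P004.H26.R.FE
import Vale.Agent.P004H.H212.Mu
import Vale.Agent.P004.H26.R.Pars

/-!
# P004: analytic rank one for a positive proportion of the twists of the curves of conductor `17`
-/

open scoped NumberTheorySymbols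

namespace P004H26

open P004G P004G.ML P004E
open Vale.Agent.P004H.H742 (kron k2 kron_one kron_odd kron_two_pow kron_mul kron_pow jac_zero jac_sq)
open P004H (tw kron_prime_sq kron_sq_cop StN1w)
open Vale.Agent.P004.H26 (H792.a)

/-- the functional equation in the form of `P004G.FEq` -/
theorem feq17 {a₀ b₀ D : ℤ} (hD : Fund1 D)
    (hL : ∀ n, LA (a₀ * D ^ 2) (b₀ * D ^ 3) n = H792.a n * kron D n) :
    FEq (LA (a₀ * D ^ 2) (b₀ * D ^ 3)) (Vale.Agent.P004.H26.cond D / 4)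
      ((Vale.Agent.P004.H26.root D : ℤ) : ℝ) := by
  have h1 : ((Vale.Agent.P004.H26.root D : ℤ) : ℝ) = 1 ∨
      ((Vale.Agent.P004.H26.root D : ℤ) : ℝ) = -1 := by
    rcases Vale.Agent.P004.H26.root_pm D with h | h <;> rw [h] <;> norm_num
  exact feq_of (Vale.Agent.P004.H26.cond_pos (Vale.Agent.P004H.H641.Fund1_ne hD)) h1
    (Vale.Agent.P004.H26.fet hD hL)

/-- the functional equations -/
theorem fe11_of {a₀ b₀ : ℤ} (hL : ∀ D : ℤ, Fund1 D → ∀ n : ℕ,
    LA (a₀ * D ^ 2) (b₀ * D ^ 3) n = H792.a n * kron D n) :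
    FE11 H792.a where
  out D hD h := by
    refine ⟨(Vale.Agent.P004.H26.root D : ℤ), ?_⟩
    have h1 := feq17 hD (hL D hD)
    have e1 : LA (a₀ * D ^ 2) (b₀ * D ^ 3) = tw H792.a D := funext (hL D hD)
    rw [e1] at h1
    unfold Vale.Agent.P004.H26.cond at h1
    rw [if_neg h] at h1
    exact h1
  inn D hD h := by
    have h1 := feq17 hD (hL D hD)
    have e1 : LA (a₀ * D ^ 2) (b₀ * D ^ 3) = tw H792.a D := funext (hL D hD)
    have hD0 : D ≠ 0 := by
      rintro rfl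
      rcases hD with h0 | ⟨-, ⟨h0, -⟩ | ⟨d, h0, h3, -⟩⟩
      · norm_num at h0
      · norm_num at h0
      · omega
    have e2 : Vale.Agent.P004.H26.root D = -D.sign := by
      unfold Vale.Agent.P004.H26.root
      rw [if_pos h]
      rcases lt_or_gt_of_ne hD0 with h3 | h3
      · rw [if_neg (by omega), Int.sign_eq_neg_one_of_neg h3]; norm_num
      · rw [if_pos h3, Int.sign_eq_one_of_pos h3]; norm_num
    rw [e1, e2] at h1
    unfold Vale.Agent.P004.H26.cond at h1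
    rw [if_pos h] at h1
    push_cast at h1
    exact h1

/-- isomorphic twists have the same `L`-function -/
theorem stIso {a₀ b₀ : ℤ} (hd0 : 4 * a₀ ^ 3 + 27 * b₀ ^ 2 ≠ 0) : StIso a₀ b₀ := by
  intro x y u v hx hy hu hv h n
  have key : ∀ z w : ℤ, z ≠ 0 → w ≠ 0 →
      LA (a₀ * z ^ 2) (b₀ * z ^ 3) n =
        LA (a₀ * (z * w ^ 2) ^ 2) (b₀ * (z * w ^ 2) ^ 3) n := by
    intro z w hz hw
    have hd : 4 * (a₀ * z ^ 2) ^ 3 + 27 * (b₀ * z ^ 3) ^ 2 ≠ 0 := by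
      have e : 4 * (a₀ * z ^ 2) ^ 3 + 27 * (b₀ * z ^ 3) ^ 2 =
          (4 * a₀ ^ 3 + 27 * b₀ ^ 2) * z ^ 6 := by ring
      rw [e]
      exact mul_ne_zero hd0 (pow_ne_zero _ hz)
    have h1 := Vale.Agent.P004H.H641.LA_scale hd hw n
    have e1 : a₀ * z ^ 2 * w ^ 4 = a₀ * (z * w ^ 2) ^ 2 := by ring
    have e2 : b₀ * z ^ 3 * w ^ 6 = b₀ * (z * w ^ 2) ^ 3 := by ring
    rw [e1, e2] at h1
    exact h1.symm
  rw [key x u hx hu, key y v hy hv, h]

/-- `StHlam` -/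
theorem stHlam {A : ℕ → ℤ} (hA : Co A) (hH : ∀ p : ℕ, p.Prime → (A p) ^ 2 ≤ 4 * p)
    (h3 : A 3 = 0) : @StHlam (crv11 hA hH) := by
  intro p hp hb
  change 10 * |((tw A (-68) p : ℤ) : ℝ)| ≤ 9 * (p : ℝ)
  have h11 : p ≠ 17 := by rintro rfl; exact hb ⟨2, rfl⟩
  have h2 : p ≠ 2 := by rintro rfl; exact hb ⟨17, rfl⟩
  have hnd : ¬ (p : ℤ) ∣ (-68) := by
    intro h
    have h3 : p ∣ 68 := by
      have h' : ((p : ℕ) : ℤ) ∣ ((68 : ℕ) : ℤ) := (dvd_neg).1 (by simpa using h)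
      exact_mod_cast h'
    have h4 : p ∣ 2 ^ 2 * 17 := by simpa using h3
    rcases (Nat.Prime.dvd_mul hp).1 h4 with h5 | h5
    · exact h2 ((Nat.prime_dvd_prime_iff_eq hp Nat.prime_two).1 (hp.dvd_of_dvd_pow h5))
    · exact h11 ((Nat.prime_dvd_prime_iff_eq hp (by norm_num)).1 h5)
  have hk := kron_prime_sq hp hnd
  have habs : |tw A (-68) p| = |A p| := by
    unfold tw
    rw [abs_mul]
    have h5 : |kron (-68) p| = 1 := by
      have h6 := sq_abs (kron (-68) p)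
      rw [hk] at h6
      have h7 := abs_nonneg (kron (-68) p)
      nlinarith
    rw [h5, mul_one]
  have key : 10 * |A p| ≤ 9 * (p : ℤ) := by
    by_cases hp3 : p = 3
    · subst hp3
      rw [h3]
      norm_num
    · have hp5 : 5 ≤ p := by
        have := hp.two_le
        have h4 : p ≠ 4 := by rintro rfl; exact absurd hp (by norm_num)
        omega
      have h6 := hH p hp
      have h7 : (5 : ℤ) ≤ p := by exact_mod_cast hp5
      have h8 : (10 * |A p|) ^ 2 ≤ (9 * (p : ℤ)) ^ 2 := by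
        rw [mul_pow, sq_abs]
        nlinarith
      exact le_of_sq_le_sq h8 (by positivity) |> fun h => h
  rw [← Int.cast_abs, habs]
  exact_mod_cast key

open scoped Classical in
/-- **Analytic rank exactly one** for a positive proportion of the quadratic twists -/
theorem rank_one_all {a₀ b₀ : ℤ} (hd0 : 4 * a₀ ^ 3 + 27 * b₀ ^ 2 ≠ 0)
    (hA : Co H792.a) (hH : ∀ p : ℕ, p.Prime → (H792.a p) ^ 2 ≤ 4 * p)
    (hL : ∀ D : ℤ, Fund1 D → ∀ n : ℕ, LA (a₀ * D ^ 2) (b₀ * D ^ 3) n = H792.a n * kron D n)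
    (hM : @StMert (crv11 hA hH)) (hN0 : @StN0 (crv11 hA hH)) (hN1 : @StN1w (crv11 hA hH))
    {d : ℤ} (hd : d ≠ 0) :
    ∃ c : ℝ, 0 < c ∧ ∃ X₀ : ℕ, ∀ X : ℕ, X₀ ≤ X →
      c * X ≤ (((P004.Fam X).filter
        (fun D => aRk (a₀ * d ^ 2) (b₀ * d ^ 3) D = 1)).card : ℝ) := by
  have h3 : H792.a 3 = 0 := Vale.Agent.P014.H687.an_three Vale.Agent.P014.H687.T3
  have hF := fe11_of hL
  exact rank_one_d hA hH hL hF (stIso hd0)
    (@P004H.modulesW (crv11 hA hH) (tf11 hA hH hF) hM hN0 hN1 (stHlam hA hH h3)) hd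

/-! ### the inputs -/

/-- the relations of the coefficients -/
theorem coF : Co H792.a where
  zero := Vale.Agent.P004.H26.H792.a_zero
  one := Vale.Agent.P004.H26.H792.a_one
  mul m n h := (Vale.Agent.P014.H687.hk Vale.Agent.P014.H687.T3).mul m n h
  good p hp h17 := Vale.Agent.P004.H26.an_good hp h17
  el k := Vale.Agent.P004.H26.an_el k

/-- Hasse's bound at all primes -/
theorem hasse_all (p : ℕ) (hp : p.Prime) : (H792.a p) ^ 2 ≤ 4 * p :=
  Vale.Agent.P004.H26.an_hasse' hp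

/-- the coefficients of the twist by `-68` up to sign -/
lemma ca_sq {n : ℕ} (hn : n.Coprime 34) : (tw H792.a (-68) n) ^ 2 = (H792.a n) ^ 2 := by
  obtain ⟨h1, h2, h3⟩ := cop22 hn
  unfold tw
  rw [mul_pow, kron_sq_cop h3, mul_one]
  intro p hp hd h44
  have h5 : p ∣ 68 := by
    have h' : ((p : ℕ) : ℤ) ∣ ((68 : ℕ) : ℤ) := (dvd_neg).1 (by simpa using h44)
    exact_mod_cast h'
  have h6 : p ∣ 34 := by
    have h7 : p ∣ 2 ^ 2 * 17 := by simpa using h5
    rcases (Nat.Prime.dvd_mul hp).1 h7 with h8 | h8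
    · exact (hp.dvd_of_dvd_pow h8).trans ⟨17, rfl⟩
    · exact h8.trans ⟨2, rfl⟩
  exact hp.one_lt.ne' (Nat.eq_one_of_dvd_coprimes hn hd h6)

/-- `StN0` -/
theorem stN0F : @StN0 (crv11 coF hasse_all) := by
  obtain ⟨C, hC, h⟩ := Vale.Agent.P004.H26.H792.sq_sum
  refine ⟨C + 1, by linarith, fun x hx => ?_⟩
  have h1 := h x hx
  have h2 : ∑ n ∈ Finset.Icc 1 ⌊x⌋₊, ((tw H792.a (-68) n : ℤ) : ℝ) ^ 2 ≤
      ∑ n ∈ Finset.Icc 1 ⌊x⌋₊, ((H792.a n : ℤ) : ℝ) ^ 2 := by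
    refine Finset.sum_le_sum fun n _ => ?_
    by_cases hn : n.Coprime 34
    · have := ca_sq hn
      have h3 : ((tw H792.a (-68) n : ℤ) : ℝ) ^ 2 = ((H792.a n : ℤ) : ℝ) ^ 2 := by exact_mod_cast this
      exact h3.le
    · rw [tw44_bad coF hn]
      norm_num
      positivity
  refine h2.trans (h1.trans ?_)
  have : 0 ≤ x ^ 2 := sq_nonneg x
  nlinarith

lemma a17_sq (n : ℕ) : H792.a (17 * n) ^ 2 = H792.a n ^ 2 := by
  rcases eq_or_ne n 0 with rfl | hn
  · rw [mul_zero]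
  have hp : Nat.Prime 17 := by norm_num
  obtain ⟨k, m, hm, rfl⟩ := Nat.exists_eq_pow_mul_and_not_dvd hn 17 hp.ne_one
  have hc : ∀ j : ℕ, (17 ^ j).Coprime m := fun j =>
    Nat.Coprime.pow_left _ ((Nat.Prime.coprime_iff_not_dvd hp).2 hm)
  have e : 17 * (17 ^ k * m) = 17 ^ (k + 1) * m := by ring
  rw [e, coF.mul _ _ (hc _), coF.mul _ _ (hc _), coF.el, coF.el]

theorem b1F : Vale.Agent.P004.H26.H361.B1 H792.a := by
  obtain ⟨c, hc, h⟩ := Vale.Agent.P004.H26.H86.fe11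
  exact Vale.Agent.P004.H26.H2.B1_of_FE Vale.Agent.P004.H26.H86.dat11 h hc a17_sq

/-- `StMert` -/
theorem stMertF : @StMert (crv11 coF hasse_all) :=
  @Vale.Agent.P004.H26.H361.stMert_of (crv11 coF hasse_all) ⟨1, rfl⟩ H792.a
    ⟨coF.one, coF.mul, fun p hp h11 k => coF.good p hp h11 k, fun p hp _ => hasse_all p hp⟩
    (fun _ hn => ca_sq hn) b1F

/-- `StN1w` -/
theorem stN1F : @StN1w (crv11 coF hasse_all) := by
  obtain ⟨c, hc, h⟩ := Vale.Agent.P004.H26.H86.fe11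
  obtain ⟨V, -, C, δ, hδ, hB⟩ := Vale.Agent.P004.H26.H2.landau Vale.Agent.P004.H26.H86.dat11 h hc
  exact @Vale.Agent.P004.H26.H181.n1w (crv11 coF hasse_all) H792.a
    ⟨coF.one, coF.mul, fun p hp h11 k => coF.good p hp h11 k, fun k => by rw [coF.el]; norm_num⟩
    ⟨2, rfl⟩ (fun _ hn => ca_sq hn) V C δ hδ hB Vale.Agent.P004H.H212.mu_div

open scoped Classical in
/-- **Analytic rank exactly one** for a positive proportion of the quadratic twists of
`y² = x³ + A d² x + B d³`, `d ≠ 0`, for the curves `y² = x³ + A x + B` of conductor `17` -/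
theorem rank_oneF {A B : ℤ} (hC : Vale.Agent.P004.H26.Cls A B) {d : ℤ} (hd : d ≠ 0) :
    ∃ c : ℝ, 0 < c ∧ ∃ X₀ : ℕ, ∀ X : ℕ, X₀ ≤ X →
      c * X ≤ (((P004.Fam X).filter (fun D => aRk (A * d ^ 2) (B * d ^ 3) D = 1)).card : ℝ) :=
  rank_one_all hC.disc coF hasse_all hC.lf stMertF stN0F stN1F hd

end P004H26
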