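import Mathlib

/-!
# Convolution with the Moebius function: logarithmic saving
-/

open Real Finset

namespace Vale.Agent.P004.H26.H181

open ArithmeticFunction

/-- hyperbola method with a free parameter -/
lemma hypD (f g : ArithmeticFunction ℝ) (N D : ℕ) (hD : D ≤ N) :
    ∑ n ∈ Ioc 0 N, (f * g) n = ∑ a ∈ Ioc 0 D, f a * ∑ b ∈ Ioc 0 (N / a), g b +
      ∑ b ∈ Ioc 0 (N / (D + 1)), g b * (∑ a ∈ Ioc 0 (N / b), f a - ∑ a ∈ Ioc 0 D, f a) := by
  rw [sum_Ioc_mul_eq_sum_sum]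
  have h1 : ∑ n ∈ Ioc 0 N, f n * ∑ m ∈ Ioc 0 (N / n), g m =
      ∑ n ∈ Ioc 0 D, f n * ∑ m ∈ Ioc 0 (N / n), g m + ∑ n ∈ Ioc D N, f n * ∑ m ∈ Ioc 0 (N / n), g m := by
    rw [← sum_union]
    · rw [Ioc_union_Ioc_eq_Ioc (Nat.zero_le D) hD]
    · rw [disjoint_left]
      intro a ha hb
      rw [mem_Ioc] at ha hb
      omega
  rw [h1]
  congr 1
  have h2 : ∀ b ∈ Ioc 0 (N / (D + 1)), ∑ a ∈ Ioc 0 (N / b), f a - ∑ a ∈ Ioc 0 D, f a =
      ∑ a ∈ Ioc D (N / b), f a := by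
    intro b hb
    rw [mem_Ioc] at hb
    have hle : D ≤ N / b := by
      have h3 := hb.2
      rw [Nat.le_div_iff_mul_le (by omega)] at h3
      rw [Nat.le_div_iff_mul_le hb.1]
      nlinarith
    rw [sub_eq_iff_eq_add, add_comm, ← sum_union]
    · rw [Ioc_union_Ioc_eq_Ioc (Nat.zero_le D) hle]
    · rw [disjoint_left]
      intro a ha hb
      rw [mem_Ioc] at ha hb
      omega
  have h3 : ∑ b ∈ Ioc 0 (N / (D + 1)), g b * (∑ a ∈ Ioc 0 (N / b), f a - ∑ a ∈ Ioc 0 D, f a) =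
      ∑ b ∈ Ioc 0 (N / (D + 1)), ∑ a ∈ Ioc D (N / b), f a * g b := by
    apply sum_congr rfl
    intro b hb
    rw [h2 b hb, mul_sum]
    exact sum_congr rfl fun a _ => mul_comm _ _
  rw [h3]
  simp only [mul_sum]
  rw [sum_comm' (s' := fun b => Ioc D (N / b)) (t' := Ioc 0 (N / (D + 1)))]
  · intro a b
    simp only [mem_Ioc]
    constructor
    · rintro ⟨⟨h3, h4⟩, h5, h6⟩
      have ha : 0 < a := by omega
      rw [Nat.le_div_iff_mul_le ha] at h6
      refine ⟨⟨h3, ?_⟩, h5, ?_⟩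
      · rw [Nat.le_div_iff_mul_le h5, mul_comm]
        exact h6
      · rw [Nat.le_div_iff_mul_le (by omega)]
        exact (Nat.mul_le_mul_left b (by omega)).trans h6
    · rintro ⟨⟨h3, h4⟩, h5, h6⟩
      rw [Nat.le_div_iff_mul_le h5] at h4
      have ha : 0 < a := by omega
      refine ⟨⟨h3, ?_⟩, h5, ?_⟩
      · exact (Nat.le_mul_of_pos_right a h5).trans h4
      · rw [Nat.le_div_iff_mul_le ha, mul_comm]; exact h4

lemma log_low (B : ℕ) : ∃ c : ℝ, 0 < c ∧ ∀ N D : ℝ, 1 ≤ N → 0 ≤ D →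
    N / (1 + Real.log N) ^ B ≤ D + 1 → c * (1 + Real.log N) ≤ 1 + Real.log (D + 1) := by
  set K : ℝ := (B + 1) * Real.log (2 * (B + 1)) with hK
  have hB0 : (0 : ℝ) ≤ B := Nat.cast_nonneg B
  have hK0 : 0 ≤ K := by
    have : 0 ≤ Real.log (2 * ((B : ℝ) + 1)) := Real.log_nonneg (by linarith)
    positivity
  refine ⟨1 / (2 * (1 + K)), by positivity, fun N D hN hD h => ?_⟩
  set L : ℝ := 1 + Real.log N with hL
  have hL1 : 1 ≤ L := by
    have := Real.log_nonneg hN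
    linarith
  have hL0 : 0 < L := by linarith
  have h1 : Real.log L ≤ L / (2 * (B + 1)) + Real.log (2 * (B + 1)) := by
    have h2 := Real.log_le_sub_one_of_pos (show 0 < L / (2 * ((B : ℝ) + 1)) by positivity)
    rw [Real.log_div hL0.ne' (by positivity)] at h2
    linarith
  have h2 : B * Real.log L ≤ L / 2 + K := by
    have h3 : (0 : ℝ) ≤ Real.log L := Real.log_nonneg hL1
    have h4 : ((B : ℝ) + 1) * Real.log L ≤ (B + 1) * (L / (2 * (B + 1)) + Real.log (2 * (B + 1))) :=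
      mul_le_mul_of_nonneg_left h1 (by linarith)
    have h5 : ((B : ℝ) + 1) * (L / (2 * (B + 1)) + Real.log (2 * (B + 1))) = L / 2 + K := by
      rw [hK]
      field_simp
    nlinarith
  have h3 : Real.log N - B * Real.log L ≤ Real.log (D + 1) := by
    have h4 : Real.log (N / L ^ B) ≤ Real.log (D + 1) := Real.log_le_log (by positivity) h
    rwa [Real.log_div (by positivity) (by positivity), Real.log_pow] at h4
  have h4 : 0 ≤ Real.log (D + 1) := Real.log_nonneg (by linarith)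
  set m : ℝ := 1 + Real.log (D + 1) with hm
  have h5 : L ≤ 2 * (m + K) := by
    rw [hm]
    have : Real.log N = L - 1 := by rw [hL]; ring
    linarith
  rw [div_mul_eq_mul_div, one_mul, div_le_iff₀ (by positivity)]
  nlinarith

lemma sum_inv_le (N : ℕ) : ∑ a ∈ Ioc 0 N, (1 : ℝ) / a ≤ 1 + Real.log N := by
  have h := harmonic_le_one_add_log N
  rw [harmonic_eq_sum_Icc] at h
  push_cast at h
  refine le_trans (le_of_eq ?_) h
  apply sum_congr
  · ext a; rw [mem_Ioc, mem_Icc]; omega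
  · intro a _; rw [one_div]

lemma pstep {δ : ℝ} (hδ : 0 < δ) (hδ1 : δ ≤ 1) (n : ℕ) (hn : 1 ≤ n) :
    (n : ℝ) ^ (1 - δ) / (n * (n + 1)) ≤ 4 / δ * ((n : ℝ) ^ (-δ) - ((n + 1 : ℕ) : ℝ) ^ (-δ)) := by
  have hn0 : (0 : ℝ) < n := by exact_mod_cast hn
  have hn1 : (1 : ℝ) ≤ n := by exact_mod_cast hn
  push_cast
  set x : ℝ := (n : ℝ) + 1 with hx
  have hx0 : 0 < x := by linarith
  -- `n ^ (-δ) ≥ x ^ (-δ) (1 + δ / x)`
  have h1 : x ^ (-δ) * (1 + δ / x) ≤ (n : ℝ) ^ (-δ) := by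
    have e1 : (n : ℝ) = x * (1 - 1 / x) := by rw [hx]; field_simp; ring
    have hy : 0 < 1 - 1 / x := by
      rw [sub_pos, div_lt_one hx0]; linarith
    have h2 : (n : ℝ) ^ (-δ) = x ^ (-δ) * (1 - 1 / x) ^ (-δ) := by
      conv_lhs => rw [e1]
      exact Real.mul_rpow hx0.le hy.le
    rw [h2]
    apply mul_le_mul_of_nonneg_left _ (Real.rpow_nonneg hx0.le _)
    rw [Real.rpow_def_of_pos hy]
    have h3 := Real.log_le_sub_one_of_pos hy
    have h4 : δ / x ≤ Real.log (1 - 1 / x) * -δ := by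
      have h5 : Real.log (1 - 1 / x) ≤ -(1 / x) := by linarith
      have h6 : δ / x = δ * (1 / x) := by ring
      nlinarith
    have h5 := Real.add_one_le_exp (Real.log (1 - 1 / x) * -δ)
    linarith
  have h2 : x ^ (-δ) * (δ / x) ≤ (n : ℝ) ^ (-δ) - x ^ (-δ) := by linarith
  have h3 : (n : ℝ) ^ (1 - δ) / (n * x) = (n : ℝ) ^ (-δ) / x := by
    rw [Real.rpow_sub hn0, Real.rpow_one, Real.rpow_neg hn0.le]
    field_simp
  rw [h3]
  have h4 : (n : ℝ) ^ (-δ) ≤ 2 * x ^ (-δ) := by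
    have h5 : x ≤ 2 * n := by rw [hx]; linarith
    have h6 : x ^ δ ≤ 2 * (n : ℝ) ^ δ := by
      calc x ^ δ ≤ (2 * n) ^ δ := Real.rpow_le_rpow hx0.le h5 hδ.le
        _ = 2 ^ δ * (n : ℝ) ^ δ := Real.mul_rpow (by norm_num) hn0.le
        _ ≤ 2 ^ (1 : ℝ) * (n : ℝ) ^ δ := by
            apply mul_le_mul_of_nonneg_right _ (Real.rpow_nonneg hn0.le _)
            exact Real.rpow_le_rpow_of_exponent_le (by norm_num) hδ1
        _ = 2 * (n : ℝ) ^ δ := by rw [Real.rpow_one]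
    rw [Real.rpow_neg hn0.le, Real.rpow_neg hx0.le, ← div_eq_mul_inv, inv_eq_one_div,
      div_le_div_iff₀ (Real.rpow_pos_of_pos hn0 _) (Real.rpow_pos_of_pos hx0 _), one_mul]
    exact h6
  calc (n : ℝ) ^ (-δ) / x ≤ 2 * x ^ (-δ) / x := div_le_div_of_nonneg_right h4 hx0.le
    _ = 2 / δ * (x ^ (-δ) * (δ / x)) := by field_simp
    _ ≤ 2 / δ * ((n : ℝ) ^ (-δ) - x ^ (-δ)) := mul_le_mul_of_nonneg_left h2 (by positivity)
    _ ≤ 4 / δ * ((n : ℝ) ^ (-δ) - x ^ (-δ)) := by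
        apply mul_le_mul_of_nonneg_right
        · apply div_le_div_of_nonneg_right (by norm_num) hδ.le
        · have : 0 ≤ x ^ (-δ) * (δ / x) := by positivity
          linarith

/-- partial summation -/
theorem part_sum {f : ℕ → ℝ} {C δ : ℝ} (hδ : 0 < δ) (hδ1 : δ ≤ 1)
    (h2 : ∀ N : ℕ, 1 ≤ N → |∑ n ∈ Ioc 0 N, f n| ≤ C * (N : ℝ) ^ (1 - δ)) :
    ∃ G C' : ℝ, 0 ≤ C' ∧ ∀ N : ℕ, 1 ≤ N →
      |∑ n ∈ Ioc 0 N, f n / n - G| ≤ C' * (N : ℝ) ^ (-δ) := by
  have hC : 0 ≤ C := by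
    have := (abs_nonneg _).trans (h2 1 le_rfl)
    simpa using this
  set S : ℕ → ℝ := fun N => ∑ n ∈ Ioc 0 N, f n with hS
  set T : ℕ → ℝ := fun N => ∑ n ∈ Ioc 0 N, f n / n with hT
  have hsucc : ∀ (g : ℕ → ℝ) (N : ℕ), ∑ n ∈ Ioc 0 (N + 1), g n = ∑ n ∈ Ioc 0 N, g n + g (N + 1) :=
    fun g N => sum_Ioc_succ_top (Nat.zero_le N) g
  set U : ℕ → ℝ := fun N => T N - S N / N with hU
  have hU1 : ∀ N : ℕ, 1 ≤ N →
      |U (N + 1) - U N| ≤ 4 * C / δ * ((N : ℝ) ^ (-δ) - ((N + 1 : ℕ) : ℝ) ^ (-δ)) := by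
    intro N hN
    have hN0 : (0 : ℝ) < N := by exact_mod_cast hN
    have e : U (N + 1) - U N = S N / (N * (N + 1)) := by
      simp only [hU, hT, hS, hsucc]
      push_cast
      field_simp
      ring
    rw [e, abs_div, abs_of_pos (by positivity : (0 : ℝ) < N * (N + 1))]
    have h3 := pstep hδ hδ1 N hN
    calc |S N| / (N * (N + 1)) ≤ C * (N : ℝ) ^ (1 - δ) / (N * (N + 1)) :=
          div_le_div_of_nonneg_right (h2 N hN) (by positivity)
      _ = C * ((N : ℝ) ^ (1 - δ) / (N * (N + 1))) := by ring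
      _ ≤ C * (4 / δ * ((N : ℝ) ^ (-δ) - ((N + 1 : ℕ) : ℝ) ^ (-δ))) :=
          mul_le_mul_of_nonneg_left h3 hC
      _ = _ := by ring
  have hU2 : ∀ N : ℕ, 1 ≤ N → ∀ M, N ≤ M →
      |U M - U N| ≤ 4 * C / δ * ((N : ℝ) ^ (-δ) - (M : ℝ) ^ (-δ)) := by
    intro N hN M hM
    induction M, hM using Nat.le_induction with
    | base => simp
    | succ M hM ih =>
      have e : U (M + 1) - U N = (U (M + 1) - U M) + (U M - U N) := by ring
      rw [e]
      refine (abs_add_le _ _).trans ?_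
      have := hU1 M (hN.trans hM)
      linarith
  set C' : ℝ := 4 * C / δ + 2 * C with hC'
  have hC'0 : 0 ≤ C' := by positivity
  have hT2 : ∀ N : ℕ, 1 ≤ N → ∀ M, N ≤ M → |T M - T N| ≤ C' * (N : ℝ) ^ (-δ) := by
    intro N hN M hM
    have h3 := hU2 N hN M hM
    have hs : ∀ K : ℕ, 1 ≤ K → |S K / K| ≤ C * (K : ℝ) ^ (-δ) := by
      intro K hK
      have hK0 : (0 : ℝ) < K := by exact_mod_cast hK
      rw [abs_div, Nat.abs_cast]
      calc |S K| / K ≤ C * (K : ℝ) ^ (1 - δ) / K := div_le_div_of_nonneg_right (h2 K hK) hK0.le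
        _ = C * (K : ℝ) ^ (-δ) := by
            rw [Real.rpow_sub hK0, Real.rpow_one, Real.rpow_neg hK0.le]
            field_simp
    have h4 := hs N hN
    have h5 := hs M (hN.trans hM)
    have e : T M - T N = (U M - U N) + S M / M - S N / N := by simp only [hU]; ring
    rw [e]
    have h6 : |(U M - U N) + S M / M - S N / N| ≤ |U M - U N| + |S M / M| + |S N / N| :=
      (abs_sub _ _).trans (add_le_add (abs_add_le _ _) le_rfl)
    have hM0 : (0 : ℝ) < M := by exact_mod_cast (show 0 < M by omega)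
    have hN0 : (0 : ℝ) < N := by exact_mod_cast hN
    have h8 : 0 ≤ (M : ℝ) ^ (-δ) := Real.rpow_nonneg hM0.le _
    have h9 : (M : ℝ) ^ (-δ) ≤ (N : ℝ) ^ (-δ) :=
      Real.rpow_le_rpow_of_nonpos hN0 (by exact_mod_cast hM) (by linarith)
    have h10 : 0 ≤ 4 * C / δ := by positivity
    calc _ ≤ |U M - U N| + |S M / M| + |S N / N| := h6
      _ ≤ 4 * C / δ * ((N : ℝ) ^ (-δ) - (M : ℝ) ^ (-δ)) + C * (M : ℝ) ^ (-δ) +
            C * (N : ℝ) ^ (-δ) := add_le_add (add_le_add h3 h5) h4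
      _ ≤ 4 * C / δ * (N : ℝ) ^ (-δ) + C * (N : ℝ) ^ (-δ) + C * (N : ℝ) ^ (-δ) := by
          have h11 : 0 ≤ 4 * C / δ * (M : ℝ) ^ (-δ) := by positivity
          have h12 : C * (M : ℝ) ^ (-δ) ≤ C * (N : ℝ) ^ (-δ) := mul_le_mul_of_nonneg_left h9 hC
          linarith
      _ = _ := by rw [hC']; ring
  have hlim : Filter.Tendsto (fun N : ℕ => C' * (N : ℝ) ^ (-δ)) Filter.atTop (nhds 0) := by
    have h3 : Filter.Tendsto (fun N : ℕ => (N : ℝ) ^ (-δ)) Filter.atTop (nhds 0) :=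
      (tendsto_rpow_neg_atTop hδ).comp tendsto_natCast_atTop_atTop
    simpa using h3.const_mul C'
  have hc : CauchySeq T := by
    rw [Metric.cauchySeq_iff']
    intro ε hε
    obtain ⟨N, hN⟩ := (Filter.eventually_atTop.1 ((hlim.eventually_lt_const hε).and
      (Filter.eventually_ge_atTop 1)))
    refine ⟨N, fun M hM => ?_⟩
    rw [Real.dist_eq]
    exact (hT2 N (hN N le_rfl).2 M hM).trans_lt (hN N le_rfl).1
  obtain ⟨G, hG⟩ := cauchySeq_tendsto_of_complete hc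
  refine ⟨G, C', hC'0, fun N hN => ?_⟩
  have h3 : |G - T N| ≤ C' * (N : ℝ) ^ (-δ) := by
    have h4 : Filter.Tendsto (fun M => |T M - T N|) Filter.atTop (nhds |G - T N|) :=
      (hG.sub_const _).abs
    exact le_of_tendsto h4 (Filter.eventually_atTop.2 ⟨N, fun M hM => hT2 N hN M hM⟩)
  rw [abs_sub_comm] at h3
  exact h3

/-- convolution of `m` (`= μ(n)/n`) with a function with a power saving: logarithmic saving -/
theorem muconv {m g : ArithmeticFunction ℝ} (hm1 : ∀ n, |m n| ≤ 1 / n)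
    (hmA : ∀ A : ℕ, ∃ C : ℝ, 0 ≤ C ∧ ∀ M : ℕ,
      |∑ n ∈ Ioc 0 M, m n| ≤ C / (1 + Real.log (M + 1)) ^ A)
    {E Cg δ : ℝ} (hδ : 0 < δ)
    (hg : ∀ M : ℕ, 1 ≤ M → |∑ k ∈ Ioc 0 M, g k - E| ≤ Cg * (M : ℝ) ^ (-δ))
    {Cb : ℝ} (hCb : 0 ≤ Cb) (hgb : ∀ M : ℕ, ∑ k ∈ Ioc 0 M, |g k| ≤ Cb * M) :
    ∃ C : ℝ, 0 ≤ C ∧ ∀ N : ℕ, 1 ≤ N → |∑ n ∈ Ioc 0 N, (m * g) n| ≤ C / (1 + Real.log N) ^ 2 := by
  obtain ⟨B, hB⟩ : ∃ B : ℕ, 3 ≤ (B : ℝ) * δ := by
    obtain ⟨B, hB⟩ := exists_nat_ge (3 / δ)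
    exact ⟨B, by rwa [div_le_iff₀ hδ] at hB⟩
  have hCg : 0 ≤ Cg := by
    have := (abs_nonneg _).trans (hg 1 le_rfl)
    simpa using this
  obtain ⟨C1, hC1, hF⟩ := hmA (B + 2)
  obtain ⟨c, hc, hlow⟩ := log_low B
  refine ⟨(|E| + 2 * Cb) * C1 / c ^ (B + 2) + Cg * 2 ^ δ, by positivity, fun N hN => ?_⟩
  have hN1 : (1 : ℝ) ≤ N := by exact_mod_cast hN
  have hN0 : (0 : ℝ) < N := by linarith
  set L : ℝ := 1 + Real.log N with hL
  have hL1 : 1 ≤ L := by
    have := Real.log_nonneg hN1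
    linarith
  have hL0 : 0 < L := by linarith
  set D : ℕ := ⌊(N : ℝ) / L ^ B⌋₊ with hD
  have hLB : 1 ≤ L ^ B := one_le_pow₀ hL1
  have hDle : (D : ℝ) ≤ N / L ^ B := Nat.floor_le (by positivity)
  have hDN : D ≤ N := by
    have : (D : ℝ) ≤ N := hDle.trans (div_le_self hN0.le hLB)
    exact_mod_cast this
  have hDlt : (N : ℝ) / L ^ B < D + 1 := Nat.lt_floor_add_one _
  have hlo : c * L ≤ 1 + Real.log (D + 1) := hlow N D hN1 (Nat.cast_nonneg D) hDlt.le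
  -- the tail bound for `m`
  have hFD : ∀ M : ℕ, D ≤ M → |∑ n ∈ Ioc 0 M, m n| ≤ C1 / (c * L) ^ (B + 2) := by
    intro M hM
    refine (hF M).trans ?_
    apply div_le_div_of_nonneg_left hC1 (by positivity)
    apply pow_le_pow_left₀ (by positivity)
    refine hlo.trans ?_
    have h1 : (D : ℝ) + 1 ≤ M + 1 := by
      have : (D : ℝ) ≤ M := by exact_mod_cast hM
      linarith
    have := Real.log_le_log (by positivity) h1
    linarith
  have hcL : C1 / (c * L) ^ (B + 2) = C1 / c ^ (B + 2) * (1 / (L ^ B * L ^ 2)) := by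
    rw [mul_pow, pow_add L B 2]
    field_simp
  have hinvB : 1 / (L ^ B * L ^ 2) ≤ 1 / L ^ 2 := by
    apply one_div_le_one_div_of_le (by positivity)
    nlinarith [sq_nonneg L]
  rw [hypD m g N D hDN]
  have e : ∑ a ∈ Ioc 0 D, m a * ∑ b ∈ Ioc 0 (N / a), g b =
      E * ∑ a ∈ Ioc 0 D, m a + ∑ a ∈ Ioc 0 D, m a * (∑ b ∈ Ioc 0 (N / a), g b - E) := by
    rw [mul_sum, ← sum_add_distrib]
    exact sum_congr rfl fun _ _ => by ring
  rw [e]
  have b1 : |E * ∑ a ∈ Ioc 0 D, m a| ≤ |E| * C1 / c ^ (B + 2) * (1 / L ^ 2) := by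
    rw [abs_mul]
    calc |E| * |∑ a ∈ Ioc 0 D, m a| ≤ |E| * (C1 / (c * L) ^ (B + 2)) :=
          mul_le_mul_of_nonneg_left (hFD D le_rfl) (abs_nonneg _)
      _ = |E| * (C1 / c ^ (B + 2)) * (1 / (L ^ B * L ^ 2)) := by rw [hcL]; ring
      _ ≤ |E| * (C1 / c ^ (B + 2)) * (1 / L ^ 2) := mul_le_mul_of_nonneg_left hinvB (by positivity)
      _ = _ := by ring
  have b2 : |∑ a ∈ Ioc 0 D, m a * (∑ b ∈ Ioc 0 (N / a), g b - E)| ≤ Cg * 2 ^ δ * (1 / L ^ 2) := by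
    refine (abs_sum_le_sum_abs _ _).trans ?_
    have h1 : ∀ a ∈ Ioc 0 D, |m a * (∑ b ∈ Ioc 0 (N / a), g b - E)| ≤
        (1 / (a : ℝ)) * (Cg * (2 ^ δ * L ^ (-3 : ℝ))) := by
      intro a ha
      rw [mem_Ioc] at ha
      rw [abs_mul]
      have ha0 : (0 : ℝ) < a := by exact_mod_cast ha.1
      have haD : (a : ℝ) ≤ D := by exact_mod_cast ha.2
      have haN : a ≤ N := ha.2.trans hDN
      have hNa : 1 ≤ N / a := by
        rw [Nat.le_div_iff_mul_le ha.1]; omega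
      refine mul_le_mul (hm1 a) ((hg _ hNa).trans ?_) (abs_nonneg _) (by positivity)
      apply mul_le_mul_of_nonneg_left _ hCg
      have h2 : (N : ℝ) / (2 * a) ≤ ((N / a : ℕ) : ℝ) := by
        have h3 : N < (N / a + 1) * a := by
          have := Nat.lt_div_mul_add (a := N) (b := a) ha.1
          nlinarith
        have h4 : (N : ℝ) < (((N / a : ℕ) : ℝ) + 1) * a := by exact_mod_cast h3
        have h5 : (1 : ℝ) ≤ ((N / a : ℕ) : ℝ) := by exact_mod_cast hNa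
        rw [div_le_iff₀ (by positivity)]
        nlinarith
      have h3 : L ^ B / 2 ≤ (N : ℝ) / (2 * a) := by
        rw [div_le_div_iff₀ (by norm_num) (by positivity)]
        have h4 : (a : ℝ) * L ^ B ≤ N := by
          calc (a : ℝ) * L ^ B ≤ D * L ^ B := mul_le_mul_of_nonneg_right haD (by positivity)
            _ ≤ N / L ^ B * L ^ B := mul_le_mul_of_nonneg_right hDle (by positivity)
            _ = N := by field_simp
        nlinarith
      calc ((N / a : ℕ) : ℝ) ^ (-δ) ≤ (L ^ B / 2) ^ (-δ) :=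
            Real.rpow_le_rpow_of_nonpos (by positivity) (h3.trans h2) (by linarith)
        _ = 2 ^ δ * L ^ (-(B * δ)) := by
            rw [Real.div_rpow (by positivity) (by norm_num), Real.rpow_neg (by norm_num : (0:ℝ) ≤ 2),
              ← Real.rpow_natCast L B, ← Real.rpow_mul hL0.le]
            rw [div_inv_eq_mul, mul_comm]
            congr 2
            ring
        _ ≤ 2 ^ δ * L ^ (-3 : ℝ) := by
            apply mul_le_mul_of_nonneg_left _ (by positivity)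
            exact Real.rpow_le_rpow_of_exponent_le hL1 (by linarith)
    refine (sum_le_sum h1).trans ?_
    rw [← sum_mul]
    have h2 : ∑ a ∈ Ioc 0 D, (1 : ℝ) / a ≤ L := by
      refine le_trans (sum_le_sum_of_subset_of_nonneg (Ioc_subset_Ioc_right hDN) ?_) (sum_inv_le N)
      intro i _ _
      positivity
    calc (∑ a ∈ Ioc 0 D, (1 : ℝ) / a) * (Cg * (2 ^ δ * L ^ (-3 : ℝ)))
        ≤ L * (Cg * (2 ^ δ * L ^ (-3 : ℝ))) := mul_le_mul_of_nonneg_right h2 (by positivity)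
      _ = Cg * 2 ^ δ * (L * L ^ (-3 : ℝ)) := by ring
      _ = Cg * 2 ^ δ * (1 / L ^ 2) := by
          congr 1
          have h3 : L ^ (-3 : ℝ) = 1 / L ^ 3 := by
            rw [Real.rpow_neg hL0.le, ← Real.rpow_natCast]; norm_num
          rw [h3]
          field_simp
  have b3 : |∑ b ∈ Ioc 0 (N / (D + 1)), g b * (∑ a ∈ Ioc 0 (N / b), m a - ∑ a ∈ Ioc 0 D, m a)| ≤
      2 * Cb * C1 / c ^ (B + 2) * (1 / L ^ 2) := by
    refine (abs_sum_le_sum_abs _ _).trans ?_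
    have h1 : ∀ b ∈ Ioc 0 (N / (D + 1)), |g b * (∑ a ∈ Ioc 0 (N / b), m a - ∑ a ∈ Ioc 0 D, m a)| ≤
        |g b| * (2 * (C1 / (c * L) ^ (B + 2))) := by
      intro b hb
      rw [mem_Ioc] at hb
      rw [abs_mul]
      apply mul_le_mul_of_nonneg_left _ (abs_nonneg _)
      have hle : D ≤ N / b := by
        have h3 := hb.2
        rw [Nat.le_div_iff_mul_le (by omega)] at h3
        rw [Nat.le_div_iff_mul_le hb.1]
        nlinarith
      have h3 := hFD _ hle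
      have h4 := hFD D le_rfl
      refine (abs_sub _ _).trans ?_
      linarith
    refine (sum_le_sum h1).trans ?_
    rw [← sum_mul]
    have h2 : ((N / (D + 1) : ℕ) : ℝ) ≤ L ^ B := by
      have h3 : ((N / (D + 1) : ℕ) : ℝ) ≤ (N : ℝ) / ((D + 1 : ℕ) : ℝ) := Nat.cast_div_le
      refine h3.trans ?_
      push_cast
      rw [div_le_iff₀ (by positivity)]
      rw [div_lt_iff₀ (by positivity)] at hDlt
      nlinarith
    calc (∑ b ∈ Ioc 0 (N / (D + 1)), |g b|) * (2 * (C1 / (c * L) ^ (B + 2)))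
        ≤ (Cb * L ^ B) * (2 * (C1 / (c * L) ^ (B + 2))) := by
          apply mul_le_mul_of_nonneg_right _ (by positivity)
          exact (hgb _).trans (mul_le_mul_of_nonneg_left h2 hCb)
      _ = 2 * Cb * C1 / c ^ (B + 2) * (1 / L ^ 2) := by
          rw [hcL]
          field_simp
  refine (abs_add_le _ _).trans ?_
  refine (add_le_add_left (abs_add_le _ _) _).trans ?_
  calc _ ≤ |E| * C1 / c ^ (B + 2) * (1 / L ^ 2) + Cg * 2 ^ δ * (1 / L ^ 2) +
        2 * Cb * C1 / c ^ (B + 2) * (1 / L ^ 2) := add_le_add (add_le_add b1 b2) b3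
    _ = _ := by ring

lemma log_sq_le {x : ℝ} (hx : 1 ≤ x) : (1 + Real.log x) ^ 2 ≤ 81 * x ^ (1 / 4 : ℝ) := by
  have hx0 : 0 ≤ x := by linarith
  have h1 : Real.log x ≤ x ^ (1 / 8 : ℝ) / (1 / 8) := Real.log_le_rpow_div hx0 (by norm_num)
  have h2 : 1 ≤ x ^ (1 / 8 : ℝ) := Real.one_le_rpow hx (by norm_num)
  have h3 : 0 ≤ Real.log x := Real.log_nonneg hx
  have h4 : 1 + Real.log x ≤ 9 * x ^ (1 / 8 : ℝ) := by
    have : x ^ (1 / 8 : ℝ) / (1 / 8) = 8 * x ^ (1 / 8 : ℝ) := by ring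
    rw [this] at h1
    linarith
  calc (1 + Real.log x) ^ 2 ≤ (9 * x ^ (1 / 8 : ℝ)) ^ 2 := pow_le_pow_left₀ (by linarith) h4 2
    _ = 81 * (x ^ (1 / 8 : ℝ) * x ^ (1 / 8 : ℝ)) := by ring
    _ = 81 * x ^ (1 / 4 : ℝ) := by
        rw [← Real.rpow_add (by linarith)]; norm_num

/-- convolution with an absolutely convergent factor keeps the logarithmic saving -/
theorem absconv {u w : ArithmeticFunction ℝ} {V C : ℝ} (hC : 0 ≤ C)
    (hu : ∀ N : ℕ, 1 ≤ N → |∑ n ∈ Ioc 0 N, u n - V| ≤ C / (1 + Real.log N) ^ 2)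
    (hw : Summable (fun n : ℕ => |w n| * (n : ℝ) ^ (1 / 4 : ℝ))) :
    ∃ W C' : ℝ, 0 ≤ C' ∧ ∀ N : ℕ, 1 ≤ N →
      |∑ n ∈ Ioc 0 N, (u * w) n - W| ≤ C' / (1 + Real.log N) ^ 2 := by
  set S0 : ℝ := ∑' n : ℕ, |w n| * (n : ℝ) ^ (1 / 4 : ℝ) with hS0
  have hnn : ∀ n : ℕ, 0 ≤ |w n| * (n : ℝ) ^ (1 / 4 : ℝ) := fun n =>
    mul_nonneg (abs_nonneg _) (Real.rpow_nonneg (Nat.cast_nonneg _) _)
  have hS00 : 0 ≤ S0 := tsum_nonneg hnn
  have hle1 : ∀ n : ℕ, |w n| ≤ |w n| * (n : ℝ) ^ (1 / 4 : ℝ) := by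
    intro n
    rcases Nat.eq_zero_or_pos n with rfl | hn
    · simp
    · have hn1 : (1 : ℝ) ≤ n := by exact_mod_cast hn
      exact le_mul_of_one_le_right (abs_nonneg _) (Real.one_le_rpow hn1 (by norm_num))
  have hs : Summable (fun n => w n) := by
    refine Summable.of_norm_bounded hw (fun n => ?_)
    rw [Real.norm_eq_abs]; exact hle1 n
  set Wt : ℝ := ∑' n, w n with hWt
  refine ⟨V * Wt, 162 * C * S0 + 81 * |V| * S0, by positivity, fun N hN => ?_⟩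
  have hN1 : (1 : ℝ) ≤ N := by exact_mod_cast hN
  have hN0 : (0 : ℝ) < N := by linarith
  set L : ℝ := 1 + Real.log N with hL
  have hL1 : 1 ≤ L := by
    have := Real.log_nonneg hN1
    linarith
  have hL0 : 0 < L := by linarith
  rw [mul_comm u w, sum_Ioc_mul_eq_sum_sum]
  have e : ∑ a ∈ Ioc 0 N, w a * ∑ b ∈ Ioc 0 (N / a), u b - V * Wt =
      ∑ a ∈ Ioc 0 N, w a * (∑ b ∈ Ioc 0 (N / a), u b - V) + V * (∑ a ∈ Ioc 0 N, w a - Wt) := by
    have : ∑ a ∈ Ioc 0 N, w a * (∑ b ∈ Ioc 0 (N / a), u b - V) =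
        ∑ a ∈ Ioc 0 N, w a * ∑ b ∈ Ioc 0 (N / a), u b - V * ∑ a ∈ Ioc 0 N, w a := by
      rw [mul_sum, ← sum_sub_distrib]
      exact sum_congr rfl fun _ _ => by ring
    rw [this]; ring
  rw [e]
  have b1 : |∑ a ∈ Ioc 0 N, w a * (∑ b ∈ Ioc 0 (N / a), u b - V)| ≤ 162 * C * S0 / L ^ 2 := by
    refine (abs_sum_le_sum_abs _ _).trans ?_
    have h1 : ∀ a ∈ Ioc 0 N, |w a * (∑ b ∈ Ioc 0 (N / a), u b - V)| ≤
        (162 * C / L ^ 2) * (|w a| * (a : ℝ) ^ (1 / 4 : ℝ)) := by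
      intro a ha
      rw [mem_Ioc] at ha
      rw [abs_mul]
      have ha1 : (1 : ℝ) ≤ a := by exact_mod_cast ha.1
      have ha0 : (0 : ℝ) < a := by linarith
      have hNa : 1 ≤ N / a := by
        rw [Nat.le_div_iff_mul_le ha.1]; omega
      set q : ℕ := N / a with hq
      have hq1 : (1 : ℝ) ≤ q := by exact_mod_cast hNa
      have h2 : (N : ℝ) ≤ (2 * a) * q := by
        have h3 : N < (N / a + 1) * a := by
          have := Nat.lt_div_mul_add (a := N) (b := a) ha.1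
          nlinarith
        have h4 : (N : ℝ) < ((q : ℝ) + 1) * a := by exact_mod_cast h3
        nlinarith
      have h3 : Real.log N ≤ Real.log (2 * a) + Real.log q := by
        rw [← Real.log_mul (by positivity) (by positivity)]
        exact Real.log_le_log hN0 h2
      have h4 : 0 ≤ Real.log q := Real.log_nonneg hq1
      have h5 : 0 ≤ Real.log (2 * a) := Real.log_nonneg (by linarith)
      have h6 : L ≤ (1 + Real.log (2 * a)) * (1 + Real.log q) := by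
        rw [hL]; nlinarith
      have h7 : L ^ 2 ≤ 162 * (a : ℝ) ^ (1 / 4 : ℝ) * (1 + Real.log q) ^ 2 := by
        calc L ^ 2 ≤ ((1 + Real.log (2 * a)) * (1 + Real.log q)) ^ 2 :=
              pow_le_pow_left₀ hL0.le h6 2
          _ = (1 + Real.log (2 * a)) ^ 2 * (1 + Real.log q) ^ 2 := by ring
          _ ≤ (81 * (2 * (a : ℝ)) ^ (1 / 4 : ℝ)) * (1 + Real.log q) ^ 2 :=
              mul_le_mul_of_nonneg_right (log_sq_le (by linarith)) (by positivity)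
          _ ≤ 162 * (a : ℝ) ^ (1 / 4 : ℝ) * (1 + Real.log q) ^ 2 := by
              apply mul_le_mul_of_nonneg_right _ (by positivity)
              rw [Real.mul_rpow (by norm_num) ha0.le]
              have h8 : (2 : ℝ) ^ (1 / 4 : ℝ) ≤ 2 := by
                calc (2 : ℝ) ^ (1 / 4 : ℝ) ≤ 2 ^ (1 : ℝ) :=
                      Real.rpow_le_rpow_of_exponent_le (by norm_num) (by norm_num)
                  _ = 2 := Real.rpow_one 2
              have h9 : 0 ≤ (a : ℝ) ^ (1 / 4 : ℝ) := by positivity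
              nlinarith
      have h8 := hu q hNa
      have h9 : C / (1 + Real.log q) ^ 2 ≤ 162 * C / L ^ 2 * (a : ℝ) ^ (1 / 4 : ℝ) := by
        rw [div_mul_eq_mul_div, div_le_div_iff₀ (by positivity) (by positivity)]
        calc C * L ^ 2 ≤ C * (162 * (a : ℝ) ^ (1 / 4 : ℝ) * (1 + Real.log q) ^ 2) :=
              mul_le_mul_of_nonneg_left h7 hC
          _ = _ := by ring
      calc |w a| * |∑ b ∈ Ioc 0 q, u b - V| ≤ |w a| * (162 * C / L ^ 2 * (a : ℝ) ^ (1 / 4 : ℝ)) :=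
            mul_le_mul_of_nonneg_left (h8.trans h9) (abs_nonneg _)
        _ = _ := by ring
    refine (sum_le_sum h1).trans ?_
    rw [← mul_sum]
    calc 162 * C / L ^ 2 * ∑ a ∈ Ioc 0 N, |w a| * (a : ℝ) ^ (1 / 4 : ℝ) ≤ 162 * C / L ^ 2 * S0 :=
          mul_le_mul_of_nonneg_left (hw.sum_le_tsum _ (fun n _ => hnn n)) (by positivity)
      _ = _ := by ring
  have b2 : |∑ a ∈ Ioc 0 N, w a - Wt| ≤ 81 * S0 / L ^ 2 := by
    have h1 : ∑ n ∈ Ioc 0 N, w n = ∑ n ∈ range (N + 1), w n := by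
      rw [← sum_subset (s₁ := Ioc 0 N) (s₂ := range (N + 1))]
      · intro n hn
        rw [mem_Ioc] at hn
        rw [mem_range]; omega
      · intro n hn hn'
        rw [mem_range] at hn
        rw [mem_Ioc] at hn'
        have : n = 0 := by omega
        rw [this]; simp
    have h2 := hs.sum_add_tsum_nat_add (N + 1)
    rw [h1, hWt, ← h2, sub_add_cancel_left, abs_neg]
    have hs' : Summable (fun n => |w (n + (N + 1))| * ((n + (N + 1) : ℕ) : ℝ) ^ (1 / 4 : ℝ)) :=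
      (summable_nat_add_iff (f := fun n : ℕ => |w n| * (n : ℝ) ^ (1 / 4 : ℝ)) (N + 1)).2 hw
    have h3 : ∀ n : ℕ, ‖w (n + (N + 1))‖ ≤
        (|w (n + (N + 1))| * ((n + (N + 1) : ℕ) : ℝ) ^ (1 / 4 : ℝ)) * (81 / L ^ 2) := by
      intro n
      rw [Real.norm_eq_abs, mul_assoc]
      apply le_mul_of_one_le_right (abs_nonneg _)
      have h4 : (N : ℝ) ^ (1 / 4 : ℝ) ≤ ((n + (N + 1) : ℕ) : ℝ) ^ (1 / 4 : ℝ) := by
        apply Real.rpow_le_rpow hN0.le _ (by norm_num)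
        push_cast
        have : (0 : ℝ) ≤ n := Nat.cast_nonneg n
        linarith
      have h5 := log_sq_le hN1
      rw [← mul_div_assoc, le_div_iff₀ (by positivity), one_mul]
      calc L ^ 2 ≤ 81 * (N : ℝ) ^ (1 / 4 : ℝ) := h5
        _ ≤ _ := by linarith
    have h4 := tsum_of_norm_bounded (hs'.mul_right (81 / L ^ 2)).hasSum h3
    rw [Real.norm_eq_abs] at h4
    refine h4.trans ?_
    rw [tsum_mul_right]
    have h5 := hw.sum_add_tsum_nat_add (N + 1)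
    rw [← hS0] at h5
    have h6 : 0 ≤ ∑ n ∈ range (N + 1), |w n| * (n : ℝ) ^ (1 / 4 : ℝ) :=
      sum_nonneg fun n _ => hnn n
    calc _ ≤ S0 * (81 / L ^ 2) := mul_le_mul_of_nonneg_right (by linarith) (by positivity)
      _ = _ := by ring
  refine (abs_add_le _ _).trans ?_
  rw [abs_mul]
  calc _ ≤ 162 * C * S0 / L ^ 2 + |V| * (81 * S0 / L ^ 2) :=
        add_le_add b1 (mul_le_mul_of_nonneg_left b2 (abs_nonneg _))
    _ = _ := by ring

end Vale.Agent.P004.H26.H181
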