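import Vale.Agent.P004.H26.R.RS2
import Mathlib.Analysis.SpecialFunctions.Gamma.Beta
import Mathlib.Analysis.SpecialFunctions.Trigonometric.Complex

/-!
# P004H: continuation of the Rankin-Selberg series and the polynomial bound
-/

open Real MeasureTheory Set Filter Topology Asymptotics

namespace Vale.Agent.P004.H26.H392

variable {b : ℕ → ℝ} {c : ℝ}

/-- the functional equation -/
def FE (b : ℕ → ℝ) (c : ℝ) : Prop := ∀ t : ℝ, 0 < t → Lam b (1 / t) + c = t * (Lam b t + c)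

/-- the pair -/
noncomputable def pair (hb : Dat b) (hc : FE b c) : WeakFEPair ℂ where
  f := fun t => ((Lam b t + c : ℝ) : ℂ)
  g := fun t => ((Lam b t + c : ℝ) : ℂ)
  k := 1
  ε := 1
  f₀ := c
  g₀ := c
  hf_int := locInt hb c
  hg_int := locInt hb c
  hk := one_pos
  hε := one_ne_zero
  h_feq := fun x hx => by
    have hx' : (0 : ℝ) < x := hx
    rw [hc x hx', Real.rpow_one, one_mul, smul_eq_mul]
    push_cast
    ring
  hf_top := fun r => top hb c r
  hg_top := fun r => top hb c r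

/-- the completed function, made entire -/
noncomputable def KK (hb : Dat b) (hc : FE b c) (s : ℂ) : ℂ := s * (s - 1) * (pair hb hc).Λ₀ s + c

theorem KK_diff (hb : Dat b) (hc : FE b c) : Differentiable ℂ (KK hb hc) := by
  unfold KK
  have := (pair hb hc).differentiable_Λ₀
  fun_prop

theorem symm_Λ₀ (hb : Dat b) (hc : FE b c) : (pair hb hc).symm.Λ₀ = (pair hb hc).Λ₀ := by
  unfold WeakFEPair.Λ₀
  congr 1
  unfold WeakFEPair.f_modif
  simp [pair]

theorem KK_symm (hb : Dat b) (hc : FE b c) (s : ℂ) : KK hb hc (1 - s) = KK hb hc s := by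
  have h := (pair hb hc).functional_equation₀ s
  rw [symm_Λ₀] at h
  have h2 : ((pair hb hc).k : ℂ) - s = 1 - s := by simp [pair]
  have h3 : (pair hb hc).ε = 1 := rfl
  rw [h2, h3, one_smul] at h
  unfold KK
  rw [h]
  ring

theorem KK_eq (hb : Dat b) (hc : FE b c) {s : ℂ} (hs : 1 < s.re) :
    KK hb hc s = s * (s - 1) * (LSeries (fun n => (b n : ℂ)) s * (1 + 17 ^ s) * Wt s) := by
  have h1 := (pair hb hc).hasMellin (s := s) (by simpa [pair] using hs)
  have h2 : (fun t => (pair hb hc).f t - (pair hb hc).f₀) = fun t => (Lam b t : ℂ) := by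
    ext t
    simp [pair]
  rw [h2] at h1
  have h3 := h1.2
  rw [mellin_Lam hb hs] at h3
  have hs0 : s ≠ 0 := by
    rintro rfl
    simp at hs
    linarith
  have hs1 : s ≠ 1 := by
    rintro rfl
    simp at hs
  rw [h3]
  unfold WeakFEPair.Λ KK
  have e1 : (pair hb hc).f₀ = c := rfl
  have e2 : (pair hb hc).g₀ = c := rfl
  have e3 : (pair hb hc).ε = 1 := rfl
  have e4 : (((pair hb hc).k : ℝ) : ℂ) = 1 := by simp [pair]
  rw [e1, e2, e3, e4, smul_eq_mul, smul_eq_mul]
  have h5 : (1 - s) ≠ 0 := sub_ne_zero.2 (Ne.symm hs1)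
  field_simp
  ring

/-! ### the bound in vertical strips -/

theorem Λ₀_bound (hb : Dat b) (hc : FE b c) (x y : ℝ) : ∃ M : ℝ, 0 ≤ M ∧ ∀ s : ℂ, x ≤ s.re →
    s.re ≤ y → ‖(pair hb hc).Λ₀ s‖ ≤ M := by
  have hconv : ∀ s : ℂ, MellinConvergent (pair hb hc).f_modif s := fun s =>
    ((pair hb hc).isStrongFEPair_toStrongFEPair.hasMellin s).1
  have hn : ∀ s : ℂ, IntegrableOn (fun t : ℝ => t ^ (s.re - 1) * ‖(pair hb hc).f_modif t‖) (Ioi 0) := by
    intro s
    refine IntegrableOn.congr_fun (hconv s).norm (fun t ht => ?_) measurableSet_Ioi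
    have ht' : (0 : ℝ) < t := ht
    simp only [norm_smul]
    rw [Complex.norm_cpow_eq_rpow_re_of_pos ht', Complex.sub_re, Complex.one_re]
  have hx := hn (x : ℂ)
  have hy := hn (y : ℂ)
  rw [Complex.ofReal_re] at hx hy
  refine ⟨∫ t in Ioi (0 : ℝ), (t ^ (x - 1) * ‖(pair hb hc).f_modif t‖ +
    t ^ (y - 1) * ‖(pair hb hc).f_modif t‖), ?_, fun s h1 h2 => ?_⟩
  · refine setIntegral_nonneg measurableSet_Ioi fun t ht => ?_
    have ht' : (0 : ℝ) < t := ht
    positivity
  · unfold WeakFEPair.Λ₀ mellin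
    refine (norm_integral_le_integral_norm _).trans ?_
    refine setIntegral_mono_on (hconv s).norm (hx.add hy) measurableSet_Ioi fun t ht => ?_
    have ht' : (0 : ℝ) < t := ht
    simp only [norm_smul]
    rw [Complex.norm_cpow_eq_rpow_re_of_pos ht', Complex.sub_re, Complex.one_re, ← add_mul]
    gcongr
    rcases le_total 1 t with h | h
    · have : t ^ (s.re - 1) ≤ t ^ (y - 1) := Real.rpow_le_rpow_of_exponent_le h (by linarith)
      have : 0 ≤ t ^ (x - 1) := by positivity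
      linarith
    · have : t ^ (s.re - 1) ≤ t ^ (x - 1) := Real.rpow_le_rpow_of_exponent_ge ht' h (by linarith)
      have : 0 ≤ t ^ (y - 1) := by positivity
      linarith

/-! ### the Gamma factor -/

/-- the inverse Gamma factor -/
noncomputable def UU (s : ℂ) : ℂ :=
  (1 / 2) * ((π : ℂ) ^ s * ((4 * π : ℝ) : ℂ) ^ (s + 1)) * (Complex.Gamma (s + 1))⁻¹ ^ 2

theorem UU_diff : Differentiable ℂ UU := by
  unfold UU
  have h1 : Differentiable ℂ fun s : ℂ => (Complex.Gamma (s + 1))⁻¹ :=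
    Complex.differentiable_one_div_Gamma.comp (by fun_prop)
  have h2 : Differentiable ℂ fun s : ℂ => (π : ℂ) ^ s :=
    (differentiable_id).const_cpow (Or.inl (by exact_mod_cast Real.pi_pos.ne'))
  have h3 : Differentiable ℂ fun s : ℂ => ((4 * π : ℝ) : ℂ) ^ (s + 1) :=
    (differentiable_id.add_const 1).const_cpow (Or.inl (by
      have : (4 * π : ℝ) ≠ 0 := by positivity
      exact_mod_cast this))
  fun_prop

theorem UU_Wt {s : ℂ} (hs : 0 < s.re) : s * Wt s * UU s = 1 := by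
  unfold Wt UU
  have hs0 : s ≠ 0 := by
    rintro rfl
    simp at hs
  have h1 : Complex.Gamma (s + 1) = s * Complex.Gamma s := Complex.Gamma_add_one s hs0
  have h2 : Complex.Gamma s ≠ 0 := Complex.Gamma_ne_zero_of_re_pos hs
  have hpi : (π : ℂ) ≠ 0 := by exact_mod_cast Real.pi_pos.ne'
  have h4pi : ((4 * π : ℝ) : ℂ) ≠ 0 := by
    have : (4 * π : ℝ) ≠ 0 := by positivity
    exact_mod_cast this
  have h3 : (π : ℂ) ^ (-s) * (π : ℂ) ^ s = 1 := by
    rw [← Complex.cpow_add _ _ hpi]; simp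
  have h4 : ((4 * π : ℝ) : ℂ) ^ (-(s + 1)) * ((4 * π : ℝ) : ℂ) ^ (s + 1) = 1 := by
    rw [← Complex.cpow_add _ _ h4pi]; simp
  rw [h1]
  calc _ = ((π : ℂ) ^ (-s) * (π : ℂ) ^ s) * (((4 * π : ℝ) : ℂ) ^ (-(s + 1)) *
        ((4 * π : ℝ) : ℂ) ^ (s + 1)) * (s * Complex.Gamma s * (s * Complex.Gamma s) *
          (s * Complex.Gamma s)⁻¹ ^ 2) := by ring
    _ = 1 := by
        rw [h3, h4]
        field_simp

theorem norm_Gamma_le {z : ℂ} (hz : 0 < z.re) : ‖Complex.Gamma z‖ ≤ Real.Gamma z.re := by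
  rw [Complex.Gamma_eq_integral hz, Real.Gamma_eq_integral hz]
  unfold Complex.GammaIntegral
  refine (norm_integral_le_integral_norm _).trans (le_of_eq ?_)
  refine setIntegral_congr_fun measurableSet_Ioi fun t ht => ?_
  have ht' : (0 : ℝ) < t := ht
  simp only [norm_mul]
  rw [Complex.norm_cpow_eq_rpow_re_of_pos ht', Complex.norm_real,
    Real.norm_of_nonneg (Real.exp_pos _).le]
  simp

theorem norm_sin_le (z : ℂ) : ‖Complex.sin z‖ ≤ Real.exp |z.im| := by
  rw [Complex.sin]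
  rw [norm_div, norm_mul, Complex.norm_I, mul_one, Complex.norm_ofNat]
  rw [div_le_iff₀ (by norm_num)]
  refine (norm_sub_le _ _).trans ?_
  rw [Complex.norm_exp, Complex.norm_exp]
  have h1 : (-z * Complex.I).re ≤ |z.im| := by
    simp
    exact le_abs_self _
  have h2 : (z * Complex.I).re ≤ |z.im| := by
    simp
    exact neg_le_abs _
  have h3 := Real.exp_le_exp.2 h1
  have h4 := Real.exp_le_exp.2 h2
  linarith

/-- growth of `1/Γ` -/
theorem inv_Gamma_le : ∃ C : ℝ, 0 < C ∧ ∀ z : ℂ, 1 / 2 ≤ z.re → z.re ≤ 5 / 2 → 1 ≤ |z.im| →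
    ‖(Complex.Gamma z)⁻¹‖ ≤ C * Real.exp (π * |z.im|) := by
  have hcont : ContinuousOn Real.Gamma (Icc (3 / 2) (7 / 2)) := by
    intro x hx
    refine (Real.differentiableAt_Gamma fun m => ?_).continuousAt.continuousWithinAt
    have h1 : (0 : ℝ) ≤ m := Nat.cast_nonneg m
    have := hx.1
    intro h2
    linarith
  obtain ⟨C, hC⟩ := isCompact_Icc.exists_bound_of_continuousOn hcont
  refine ⟨|C| + 1, by positivity, fun z h1 h2 h3 => ?_⟩
  set w := z - 3 with hw
  have e1 := Complex.one_div_Gamma_eq_self_mul_one_div_Gamma_add_one w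
  have e2 := Complex.one_div_Gamma_eq_self_mul_one_div_Gamma_add_one (w + 1)
  have e3 := Complex.one_div_Gamma_eq_self_mul_one_div_Gamma_add_one (w + 1 + 1)
  have e4 : w + 1 + 1 + 1 = z := by rw [hw]; ring
  rw [e4] at e3
  rw [e3] at e2
  rw [e2] at e1
  have him : ∀ v : ℂ, v.im = z.im → 1 ≤ ‖v‖ := fun v hv =>
    h3.trans (hv ▸ Complex.abs_im_le_norm v)
  have n1 : 1 ≤ ‖w‖ := him w (by rw [hw]; simp)
  have n2 : 1 ≤ ‖w + 1‖ := him _ (by rw [hw]; simp)
  have n3 : 1 ≤ ‖w + 1 + 1‖ := him _ (by rw [hw]; simp)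
  have h4 : ‖(Complex.Gamma z)⁻¹‖ ≤ ‖(Complex.Gamma w)⁻¹‖ := by
    rw [e1, norm_mul, norm_mul, norm_mul]
    have h5 : 0 ≤ ‖(Complex.Gamma z)⁻¹‖ := norm_nonneg _
    have h6 : ‖(Complex.Gamma z)⁻¹‖ ≤ ‖w + 1 + 1‖ * ‖(Complex.Gamma z)⁻¹‖ := by nlinarith
    have h7 : ‖w + 1 + 1‖ * ‖(Complex.Gamma z)⁻¹‖ ≤
        ‖w + 1‖ * (‖w + 1 + 1‖ * ‖(Complex.Gamma z)⁻¹‖) := by nlinarith
    have h8 : ‖w + 1‖ * (‖w + 1 + 1‖ * ‖(Complex.Gamma z)⁻¹‖) ≤
        ‖w‖ * (‖w + 1‖ * (‖w + 1 + 1‖ * ‖(Complex.Gamma z)⁻¹‖)) := by nlinarith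
    linarith
  refine h4.trans ?_
  have hrefl := Complex.Gamma_mul_Gamma_one_sub w
  have hpi : (π : ℂ) ≠ 0 := by exact_mod_cast Real.pi_pos.ne'
  have h9 : (Complex.Gamma w)⁻¹ = Complex.Gamma (1 - w) * Complex.sin (π * w) / π := by
    by_cases hG : Complex.Gamma w = 0
    · rw [hG, zero_mul] at hrefl
      have : Complex.sin (π * w) = 0 := by
        by_contra hne
        exact (div_ne_zero hpi hne) hrefl.symm
      rw [hG, this]
      simp
    · have hs : Complex.sin (π * w) ≠ 0 := by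
        intro h0
        rw [h0, div_zero] at hrefl
        rcases mul_eq_zero.1 hrefl with h | h
        · exact hG h
        · exact Complex.Gamma_ne_zero_of_re_pos (s := 1 - w) (by
            rw [hw]; simp; linarith) h
      field_simp
      rw [hrefl]
      field_simp
  rw [h9, norm_div, norm_mul, Complex.norm_real, Real.norm_of_nonneg Real.pi_pos.le]
  have h10 : ‖Complex.Gamma (1 - w)‖ ≤ |C| := by
    have hre : (1 - w).re = 4 - z.re := by rw [hw]; simp; ring
    refine (norm_Gamma_le (by rw [hre]; linarith)).trans ?_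
    rw [hre]
    have := hC (4 - z.re) ⟨by linarith, by linarith⟩
    exact (le_abs_self _).trans (this.trans (le_abs_self _))
  have h11 : ‖Complex.sin (π * w)‖ ≤ Real.exp (π * |z.im|) := by
    refine (norm_sin_le _).trans (Real.exp_le_exp.2 (le_of_eq ?_))
    have : (π * w : ℂ).im = π * z.im := by
      rw [Complex.im_ofReal_mul, hw]; simp
    rw [this, abs_mul, abs_of_pos Real.pi_pos]
  have h12 : (1 : ℝ) ≤ π := by linarith [Real.pi_gt_three]
  have h13 : 0 ≤ Real.exp (π * |z.im|) := (Real.exp_pos _).le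
  rw [div_le_iff₀ Real.pi_pos]
  calc ‖Complex.Gamma (1 - w)‖ * ‖Complex.sin (π * w)‖ ≤ |C| * Real.exp (π * |z.im|) := by gcongr
    _ ≤ (|C| + 1) * Real.exp (π * |z.im|) := by nlinarith
    _ ≤ (|C| + 1) * Real.exp (π * |z.im|) * π := by
        have : 0 ≤ (|C| + 1) * Real.exp (π * |z.im|) := by positivity
        nlinarith

end Vale.Agent.P004.H26.H392
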