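import Vale.Agent.P004.H26.R.RS3

/-!
# P004H: the polynomial bound (Phragmen-Lindelof)
-/

open Real MeasureTheory Set Filter Topology Asymptotics

namespace Vale.Agent.P004.H26.H392

variable {b : ℕ → ℝ} {c : ℝ}

/-- `(s - 1) B(s) (1 + 17^s)`, entire -/
noncomputable def EE (hb : Dat b) (hc : FE b c) (s : ℂ) : ℂ := KK hb hc s * UU s

theorem EE_diff (hb : Dat b) (hc : FE b c) : Differentiable ℂ (EE hb hc) :=
  (KK_diff hb hc).mul UU_diff

theorem EE_eq (hb : Dat b) (hc : FE b c) {s : ℂ} (hs : 1 < s.re) :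
    EE hb hc s = (s - 1) * LSeries (fun n => (b n : ℂ)) s * (1 + 17 ^ s) := by
  unfold EE
  rw [KK_eq hb hc hs]
  have h := UU_Wt (s := s) (by linarith)
  linear_combination ((s - 1) * LSeries (fun n => (b n : ℂ)) s * (1 + 17 ^ s)) * h

theorem norm_B_le (hb : Dat b) {s : ℂ} (hs : s.re = 3 / 2) :
    ‖LSeries (fun n => (b n : ℂ)) s‖ ≤ ∑' k : ℕ, b k * (k : ℝ) ^ (-(3 / 2) : ℝ) := by
  have hsum := hb.summ (3 / 2) (by norm_num)
  unfold LSeries
  refine tsum_of_norm_bounded hsum.hasSum fun k => ?_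
  rcases Nat.eq_zero_or_pos k with rfl | hk
  · rw [LSeries.term_zero, norm_zero, hb.zero]; simp
  rw [LSeries.term_of_ne_zero hk.ne', norm_div, Complex.norm_real,
    Real.norm_of_nonneg (hb.nonneg k), Complex.norm_natCast_cpow_of_pos hk, hs,
    Real.rpow_neg (Nat.cast_nonneg k)]
  exact le_of_eq (div_eq_mul_inv _ _)

theorem norm_11 (s : ℂ) : ‖(17 : ℂ) ^ s‖ = 17 ^ s.re := by
  have := Complex.norm_cpow_eq_rpow_re_of_pos (by norm_num : (0 : ℝ) < 17) s
  simpa using this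

/-- the right edge -/
theorem edge_right (hb : Dat b) (hc : FE b c) : ∃ M : ℝ, 0 ≤ M ∧ ∀ s : ℂ, s.re = 3 / 2 →
    ‖EE hb hc s‖ ≤ M * ‖s - 1‖ := by
  set B := ∑' k : ℕ, b k * (k : ℝ) ^ (-(3 / 2) : ℝ) with hB
  have hB0 : 0 ≤ B := tsum_nonneg fun k => mul_nonneg (hb.nonneg k) (by positivity)
  refine ⟨B * (1 + 17 ^ (3 / 2 : ℝ)), by positivity, fun s hs => ?_⟩
  rw [EE_eq hb hc (by rw [hs]; norm_num), norm_mul, norm_mul]
  have h1 := norm_B_le hb hs
  have h2 : ‖(1 : ℂ) + 17 ^ s‖ ≤ 1 + 17 ^ (3 / 2 : ℝ) := by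
    refine (norm_add_le _ _).trans ?_
    rw [norm_one, norm_11, hs]
  calc ‖s - 1‖ * ‖LSeries (fun n => (b n : ℂ)) s‖ * ‖(1 : ℂ) + 17 ^ s‖
      ≤ ‖s - 1‖ * B * (1 + 17 ^ (3 / 2 : ℝ)) := by gcongr
    _ = _ := by ring

/-- the left edge -/
theorem edge_left (hb : Dat b) (hc : FE b c) : ∃ M : ℝ, 0 ≤ M ∧ ∀ s : ℂ, s.re = -(1 / 2) →
    ‖EE hb hc s‖ ≤ M * ‖s‖ * (‖s + 2‖ * ‖s + 1‖) ^ 2 := by
  obtain ⟨M, hM, h⟩ := edge_right hb hc
  refine ⟨M * (π ^ (-2 : ℝ) * (4 * π) ^ (-2 : ℝ)), by positivity, fun s hs => ?_⟩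
  have h1 := h (1 - s) (by rw [Complex.sub_re, Complex.one_re, hs]; norm_num)
  rw [show (1 : ℂ) - s - 1 = -s by ring, norm_neg] at h1
  have hconj : ‖Complex.Gamma (2 - s)‖ = ‖s + 2‖ * ‖s + 1‖ * ‖Complex.Gamma (s + 1)‖ := by
    have e1 : (starRingEnd ℂ) (2 - s) = s + 3 := by
      apply Complex.ext
      · simp [hs]; norm_num
      · simp
    have e2 : ‖Complex.Gamma (2 - s)‖ = ‖Complex.Gamma (s + 3)‖ := by
      rw [← e1, Complex.Gamma_conj, Complex.norm_conj]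
    have hs1 : s + 1 ≠ 0 := by
      intro h0
      have := congrArg Complex.re h0
      simp [hs] at this
      norm_num at this
    have hs2 : s + 2 ≠ 0 := by
      intro h0
      have := congrArg Complex.re h0
      simp [hs] at this
      norm_num at this
    have e3 : Complex.Gamma (s + 3) = (s + 2) * ((s + 1) * Complex.Gamma (s + 1)) := by
      rw [← Complex.Gamma_add_one _ hs1, show s + 1 + 1 = s + 2 by ring,
        ← Complex.Gamma_add_one _ hs2]
      congr 1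
      ring
    rw [e2, e3, norm_mul, norm_mul]
    ring
  have hG : Complex.Gamma (s + 1) ≠ 0 := Complex.Gamma_ne_zero_of_re_pos (by simp [hs]; norm_num)
  have hG2 : Complex.Gamma (2 - s) ≠ 0 := Complex.Gamma_ne_zero_of_re_pos (by simp [hs]; norm_num)
  have hpi : 0 < π := Real.pi_pos
  have n1 : ‖UU s‖ = 1 / 2 * (π ^ (-(1 / 2) : ℝ) * (4 * π) ^ (1 / 2 : ℝ)) *
      (‖Complex.Gamma (s + 1)‖⁻¹) ^ 2 := by
    unfold UU
    rw [norm_mul, norm_mul, norm_mul, norm_pow, norm_inv,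
      Complex.norm_cpow_eq_rpow_re_of_pos hpi, Complex.norm_cpow_eq_rpow_re_of_pos (by positivity),
      Complex.add_re, Complex.one_re, hs]
    norm_num
  have n2 : ‖UU (1 - s)‖ = 1 / 2 * (π ^ (3 / 2 : ℝ) * (4 * π) ^ (5 / 2 : ℝ)) *
      (‖Complex.Gamma (2 - s)‖⁻¹) ^ 2 := by
    unfold UU
    rw [norm_mul, norm_mul, norm_mul, norm_pow, norm_inv,
      Complex.norm_cpow_eq_rpow_re_of_pos hpi, Complex.norm_cpow_eq_rpow_re_of_pos (by positivity),
      Complex.add_re, Complex.sub_re, Complex.one_re, hs, show (1 : ℂ) - s + 1 = 2 - s by ring]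
    norm_num
  have h2 : ‖EE hb hc (1 - s)‖ = ‖KK hb hc s‖ * ‖UU (1 - s)‖ := by
    unfold EE
    rw [norm_mul, KK_symm]
  rw [h2, n2, hconj] at h1
  unfold EE
  rw [norm_mul, n1]
  have g0 : 0 < ‖Complex.Gamma (s + 1)‖ := norm_pos_iff.2 hG
  have g1 : 0 < ‖s + 2‖ * ‖s + 1‖ := by
    have : 0 < ‖s + 2‖ * ‖s + 1‖ * ‖Complex.Gamma (s + 1)‖ := hconj ▸ norm_pos_iff.2 hG2
    exact pos_of_mul_pos_left this g0.le
  have e5 : π ^ (3 / 2 : ℝ) = π ^ (-(1 / 2) : ℝ) * π ^ (2 : ℝ) := by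
    rw [← Real.rpow_add hpi]; norm_num
  have e6 : (4 * π) ^ (5 / 2 : ℝ) = (4 * π) ^ (1 / 2 : ℝ) * (4 * π) ^ (2 : ℝ) := by
    rw [← Real.rpow_add (by positivity)]; norm_num
  rw [e5, e6] at h1
  have q1 : π ^ (-2 : ℝ) = (π ^ (2 : ℝ))⁻¹ := Real.rpow_neg hpi.le 2
  have q2 : (4 * π) ^ (-2 : ℝ) = ((4 * π) ^ (2 : ℝ))⁻¹ := Real.rpow_neg (by positivity) 2
  rw [q1, q2]
  have p2 : 0 < π ^ (2 : ℝ) := by positivity
  have p3 : 0 < (4 * π) ^ (2 : ℝ) := by positivity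
  set A := π ^ (-(1 / 2) : ℝ) * (4 * π) ^ (1 / 2 : ℝ) with hA
  have hh : ‖KK hb hc s‖ * (1 / 2 * A * (‖Complex.Gamma (s + 1)‖⁻¹) ^ 2) *
      ((π ^ (2 : ℝ) * (4 * π) ^ (2 : ℝ)) * ((‖s + 2‖ * ‖s + 1‖)⁻¹) ^ 2) ≤ M * ‖s‖ := by
    refine le_trans (le_of_eq ?_) h1
    rw [hA, mul_inv (‖s + 2‖ * ‖s + 1‖)]
    ring
  have hpos : 0 < (π ^ (2 : ℝ) * (4 * π) ^ (2 : ℝ)) * ((‖s + 2‖ * ‖s + 1‖)⁻¹) ^ 2 := by positivity
  rw [← le_div_iff₀ hpos] at hh
  refine hh.trans (le_of_eq ?_)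
  field_simp

/-- **the polynomial bound** -/
theorem EE_bound (hb : Dat b) (hc : FE b c) : ∃ M : ℝ, 0 ≤ M ∧ ∀ s : ℂ, -(1 / 2) ≤ s.re →
    s.re ≤ 3 / 2 → ‖EE hb hc s‖ ≤ M * ‖s + 2‖ ^ 5 := by
  obtain ⟨M₁, hM₁, h₁⟩ := edge_right hb hc
  obtain ⟨M₂, hM₂, h₂⟩ := edge_left hb hc
  obtain ⟨M₀, hM₀, h₀⟩ := Λ₀_bound hb hc (-(1 / 2)) (3 / 2)
  obtain ⟨CG, hCG, hG⟩ := inv_Gamma_le
  refine ⟨M₁ + M₂, by positivity, fun z hz1 hz2 => ?_⟩
  have hne : ∀ s : ℂ, -(1 / 2) ≤ s.re → s + 2 ≠ 0 := by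
    intro s hs h0
    have := congrArg Complex.re h0
    simp at this
    linarith
  have hn1 : ∀ s : ℂ, -(1 / 2) ≤ s.re → 1 ≤ ‖s + 2‖ := by
    intro s hs
    have h1 := Complex.re_le_norm (s + 2)
    simp at h1
    linarith
  set f : ℂ → ℂ := fun s => EE hb hc s / (s + 2) ^ 5 with hf
  have key : ‖f z‖ ≤ M₁ + M₂ := by
    refine PhragmenLindelof.vertical_strip (a := -(1 / 2)) (b := 3 / 2) (f := f) ?_ ?_ ?_ ?_ hz1 hz2
    · have hd : DifferentiableOn ℂ f {s : ℂ | -(1 / 2) ≤ s.re} := by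
        intro s hs
        refine (DifferentiableAt.div (EE_diff hb hc s) (by fun_prop) ?_).differentiableWithinAt
        exact pow_ne_zero _ (hne s hs)
      refine DifferentiableOn.diffContOnCl (hd.mono ?_)
      have : closure (Complex.re ⁻¹' Ioo (-(1 / 2) : ℝ) (3 / 2)) ⊆
          Complex.re ⁻¹' Icc (-(1 / 2) : ℝ) (3 / 2) :=
        closure_minimal (preimage_mono Ioo_subset_Icc_self)
          (isClosed_Icc.preimage Complex.continuous_re)
      intro s hs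
      exact (this hs).1
    · refine ⟨1, ?_, 20, ?_⟩
      · rw [lt_div_iff₀ (by norm_num)]
        linarith [Real.pi_gt_three]
      refine IsBigO.of_bound ((4 * M₀ + |c|) * (1 / 2 * (π ^ (3 / 2 : ℝ) * (4 * π) ^ (5 / 2 : ℝ)) *
        CG ^ 2)) ?_
      rw [eventually_inf_principal]
      have hev : ∀ᶠ s : ℂ in comap (_root_.abs ∘ Complex.im) atTop, (1 : ℝ) ≤ |s.im| :=
        (tendsto_comap.eventually_ge_atTop (1 : ℝ))
      filter_upwards [hev] with s hs hmem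
      have hs1 : -(1 / 2) < s.re := hmem.1
      have hs2 : s.re < 3 / 2 := hmem.2
      have hns : ‖s‖ ≤ |s.re| + |s.im| := Complex.norm_le_abs_re_add_abs_im s
      have hre : |s.re| ≤ 3 / 2 := abs_le.2 ⟨by linarith, by linarith⟩
      rw [Real.norm_of_nonneg (Real.exp_pos _).le]
      have hy : |s.im| ≤ Real.exp |s.im| := by linarith [Real.add_one_le_exp |s.im|]
      have hyy : 1 + |s.im| ≤ Real.exp |s.im| := by linarith [Real.add_one_le_exp |s.im|]
      have n1 : ‖f s‖ ≤ ‖EE hb hc s‖ := by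
        rw [hf]
        simp only [norm_div, norm_pow]
        exact div_le_self (norm_nonneg _) (one_le_pow₀ (hn1 s hs1.le))
      have n2 : ‖KK hb hc s‖ ≤ (4 * M₀ + |c|) * Real.exp |s.im| ^ 2 := by
        unfold KK
        refine (norm_add_le _ _).trans ?_
        rw [norm_mul, norm_mul, Complex.norm_real, Real.norm_eq_abs]
        have hK := h₀ s hs1.le hs2.le
        have a1 : ‖s‖ ≤ 3 / 2 + |s.im| := by linarith
        have a2 : ‖s - 1‖ ≤ 3 / 2 + |s.im| := by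
          have := Complex.norm_le_abs_re_add_abs_im (s - 1)
          simp at this
          have h3 : |s.re - 1| ≤ 3 / 2 := abs_le.2 ⟨by linarith, by linarith⟩
          linarith
        have a3 : ‖s‖ * ‖s - 1‖ ≤ 4 * Real.exp |s.im| ^ 2 := by
          have a4 : 3 / 2 + |s.im| ≤ 2 * Real.exp |s.im| := by
            have := abs_nonneg s.im
            linarith
          calc ‖s‖ * ‖s - 1‖ ≤ (2 * Real.exp |s.im|) * (2 * Real.exp |s.im|) := by
                gcongr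
                · linarith
                · linarith
            _ = _ := by ring
        have a5 : 1 ≤ Real.exp |s.im| ^ 2 := by
          have : 1 ≤ Real.exp |s.im| := Real.one_le_exp (abs_nonneg _)
          exact one_le_pow₀ this
        calc ‖s‖ * ‖s - 1‖ * ‖(pair hb hc).Λ₀ s‖ + |c|
            ≤ (4 * Real.exp |s.im| ^ 2) * M₀ + |c| * Real.exp |s.im| ^ 2 := by
              gcongr
              nlinarith [abs_nonneg c]
          _ = _ := by ring
      have n3 : ‖UU s‖ ≤ 1 / 2 * (π ^ (3 / 2 : ℝ) * (4 * π) ^ (5 / 2 : ℝ)) *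
          (CG * Real.exp (π * |s.im|)) ^ 2 := by
        unfold UU
        have hpi : 0 < π := Real.pi_pos
        have hpi1 : 1 ≤ π := by linarith [Real.pi_gt_three]
        rw [norm_mul, norm_mul, norm_mul, norm_pow, 
          Complex.norm_cpow_eq_rpow_re_of_pos hpi,
          Complex.norm_cpow_eq_rpow_re_of_pos (by positivity), Complex.add_re, Complex.one_re]
        have b1 : ‖(1 / 2 : ℂ)‖ = 1 / 2 := by norm_num
        have b2 : π ^ s.re ≤ π ^ (3 / 2 : ℝ) := Real.rpow_le_rpow_of_exponent_le hpi1 hs2.le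
        have b3 : (4 * π) ^ (s.re + 1) ≤ (4 * π) ^ (5 / 2 : ℝ) :=
          Real.rpow_le_rpow_of_exponent_le (by linarith) (by linarith)
        have b4 := hG (s + 1) (by simp; linarith) (by simp; linarith) (by simpa using hs)
        have b5 : (s + 1).im = s.im := by simp
        rw [b5] at b4
        rw [b1]
        gcongr
      have n4 : ‖EE hb hc s‖ ≤ (4 * M₀ + |c|) * Real.exp |s.im| ^ 2 *
          (1 / 2 * (π ^ (3 / 2 : ℝ) * (4 * π) ^ (5 / 2 : ℝ)) *
          (CG * Real.exp (π * |s.im|)) ^ 2) := by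
        unfold EE
        rw [norm_mul]
        gcongr
      refine n1.trans (n4.trans ?_)
      have e1 : Real.exp |s.im| ^ 2 * Real.exp (π * |s.im|) ^ 2 ≤
          Real.exp (20 * Real.exp (1 * |s.im|)) := by
        rw [← Real.exp_nat_mul, ← Real.exp_nat_mul, ← Real.exp_add]
        apply Real.exp_le_exp.2
        have hpi4 : π ≤ 4 := Real.pi_le_four
        have := abs_nonneg s.im
        rw [one_mul]
        push_cast
        nlinarith
      have hcoef : 0 ≤ (4 * M₀ + |c|) * (1 / 2 * (π ^ (3 / 2 : ℝ) * (4 * π) ^ (5 / 2 : ℝ)) *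
        CG ^ 2) := by positivity
      calc _ = (4 * M₀ + |c|) * (1 / 2 * (π ^ (3 / 2 : ℝ) * (4 * π) ^ (5 / 2 : ℝ)) *
            CG ^ 2) * (Real.exp |s.im| ^ 2 * Real.exp (π * |s.im|) ^ 2) := by ring
        _ ≤ _ := by gcongr
    · intro s hs
      have h3 := h₂ s hs
      have h4 := hn1 s hs.ge
      rw [hf]
      simp only [norm_div, norm_pow]
      rw [div_le_iff₀ (by positivity)]
      refine h3.trans ?_
      have h5 : ‖s‖ ≤ ‖s + 2‖ := by
        rw [Complex.norm_def, Complex.norm_def]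
        apply Real.sqrt_le_sqrt
        rw [Complex.normSq_apply, Complex.normSq_apply]
        simp [hs]
        norm_num
      have h6 : ‖s + 1‖ ≤ ‖s + 2‖ := by
        rw [Complex.norm_def, Complex.norm_def]
        apply Real.sqrt_le_sqrt
        rw [Complex.normSq_apply, Complex.normSq_apply]
        simp [hs]
        norm_num
      calc M₂ * ‖s‖ * (‖s + 2‖ * ‖s + 1‖) ^ 2 ≤ M₂ * ‖s + 2‖ * (‖s + 2‖ * ‖s + 2‖) ^ 2 := by gcongr
        _ = M₂ * ‖s + 2‖ ^ 5 := by ring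
        _ ≤ (M₁ + M₂) * ‖s + 2‖ ^ 5 := by gcongr; linarith
    · intro s hs
      have h3 := h₁ s hs
      have h4 := hn1 s (by rw [hs]; norm_num)
      rw [hf]
      simp only [norm_div, norm_pow]
      rw [div_le_iff₀ (by positivity)]
      refine h3.trans ?_
      have h5 : ‖s - 1‖ ≤ ‖s + 2‖ := by
        rw [Complex.norm_def, Complex.norm_def]
        apply Real.sqrt_le_sqrt
        rw [Complex.normSq_apply, Complex.normSq_apply]
        simp [hs]
        norm_num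
      have h6 : ‖s + 2‖ ≤ ‖s + 2‖ ^ 5 := le_self_pow₀ h4 (by norm_num)
      calc M₁ * ‖s - 1‖ ≤ M₁ * ‖s + 2‖ ^ 5 := by gcongr; linarith
        _ ≤ (M₁ + M₂) * ‖s + 2‖ ^ 5 := by gcongr; linarith
  rw [hf] at key
  simp only [norm_div, norm_pow] at key
  rwa [div_le_iff₀ (by have := hn1 z hz1; positivity)] at key

end Vale.Agent.P004.H26.H392
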