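import Vale.Agent.P004.H26.R.Crv

/-!
# P004H: analytic rank one for a positive proportion of the twists of every twist of `X_0(17)`
-/

open Real MeasureTheory Set
open scoped NumberTheorySymbols

namespace P004H26

open P004G P004G.ML P004E P004E.Fin
open Vale.Agent.P004H.H742 (kron k2 kron_one kron_odd kron_two_pow kron_mul kron_pow jac_zero jac_sq)
open P004H (aRk_congr exists_sqf)

/-- isomorphic twists have the same `L`-function -/
def StIso (a₀ b₀ : ℤ) : Prop := ∀ x y u v : ℤ, x ≠ 0 → y ≠ 0 → u ≠ 0 → v ≠ 0 → x * u ^ 2 = y * v ^ 2 →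
  ∀ n : ℕ, LA (a₀ * x ^ 2) (b₀ * x ^ 3) n = LA (a₀ * y ^ 2) (b₀ * y ^ 3) n

section

variable {a₀ b₀ : ℤ} {A : ℕ → ℤ} (hA : Co A) (hH : ∀ p : ℕ, p.Prime → (A p) ^ 2 ≤ 4 * p)

open scoped Classical in
/-- the good set -/
noncomputable def Gd (a₀ b₀ : ℤ) (N Y : ℕ) : Finset ℤ :=
  (sqZ Y).filter (fun m => m < 0 ∧ m % (N : ℤ) = 1 ∧ aRk a₀ b₀ ((-68) * m) = 1)

include hA hH in
theorem count11 (hLT : ∀ D : ℤ, Fund1 D → ∀ n : ℕ, LA (a₀ * D ^ 2) (b₀ * D ^ 3) n = A n * kron D n) (hF : FE11 A)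
    (hmod : @StFirst (crv11 hA hH) ∧ @StWin (crv11 hA hH) ∧ @StMr (crv11 hA hH) ∧
      @StBlk (crv11 hA hH) ∧ @StStrip (crv11 hA hH)) {N : ℕ} (hN : 0 < N) (h88 : 136 ∣ N) :
    ∃ c : ℝ, 0 < c ∧ ∃ Y₀ : ℕ, ∀ Y : ℕ, Y₀ ≤ Y → c * Y ≤ ((Gd a₀ b₀ N Y).card : ℝ) := by
  classical
  let I : Crv := crv11 hA hH
  obtain ⟨h1, h2, h3, h4, h5⟩ := hmod
  have h88' : ∀ m : ℤ, m % (N : ℤ) = 1 → m % 136 = 1 := by
    intro m hm
    have h6 : (N : ℤ) ∣ m - 1 := Int.dvd_self_sub_of_emod_eq hm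
    have h7 : (136 : ℤ) ∣ m - 1 := Dvd.dvd.trans (by exact_mod_cast h88) h6
    omega
  have hcls := fun (m : ℤ) (hm : Squarefree m) (hs : m.sign = -1) (hm1 : m % (N : ℤ) = 1) =>
    class11 hA hH hLT hF hm hs (h88' m hm1)
  obtain ⟨c, hc, Y₀, hY₀⟩ := good_count h1 h2 h3 h4 h5 (σ := -1) (N := N) (q₀ := 1156)
    (Or.inr rfl) hN (Dvd.dvd.trans ⟨17, rfl⟩ h88)
    (Dvd.dvd.trans (show bd ∣ 136 from ⟨4, rfl⟩) h88) (by norm_num)
    (fun m hm hs hm1 _ => (hcls m hm hs hm1).1)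
  refine ⟨c, hc, max Y₀ 3, fun Y hY => ?_⟩
  refine (hY₀ Y ((le_max_left _ _).trans hY)).trans ?_
  have hY3 : 3 ≤ Y := (le_max_right _ _).trans hY
  refine Nat.cast_le.2 (Finset.card_le_card fun m hm => ?_)
  obtain ⟨hm1, hm2⟩ := mem_TG.1 hm
  unfold Cl at hm1
  rw [Finset.mem_filter, mem_sqZ] at hm1
  obtain ⟨⟨g1, g2⟩, g3, g4, g5⟩ := hm1
  obtain ⟨-, -, g6, g7⟩ := hcls m g2 g4 g5
  unfold Gd
  rw [Finset.mem_filter, mem_sqZ]
  refine ⟨⟨g1, g2⟩, Int.sign_eq_neg_one_iff_neg.1 g4, g5, ?_⟩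
  by_contra hne
  apply hm2
  intro j hj
  apply g7 j
  obtain ⟨k, hk⟩ := g6
  omega

end

open scoped Classical in
/-- **rank one** for the twists of the twist by `d` -/
theorem rank_one_d {a₀ b₀ : ℤ} {A : ℕ → ℤ} (hA : Co A) (hH : ∀ p : ℕ, p.Prime → (A p) ^ 2 ≤ 4 * p)
    (hLT : ∀ D : ℤ, Fund1 D → ∀ n : ℕ, LA (a₀ * D ^ 2) (b₀ * D ^ 3) n = A n * kron D n) (hF : FE11 A) (hIso : StIso a₀ b₀)
    (hmod : @StFirst (crv11 hA hH) ∧ @StWin (crv11 hA hH) ∧ @StMr (crv11 hA hH) ∧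
      @StBlk (crv11 hA hH) ∧ @StStrip (crv11 hA hH)) {d : ℤ} (hd : d ≠ 0) :
    ∃ c : ℝ, 0 < c ∧ ∃ X₀ : ℕ, ∀ X : ℕ, X₀ ≤ X →
      c * X ≤ (((P004.Fam X).filter
        (fun D => aRk (a₀ * d ^ 2) (b₀ * d ^ 3) D = 1)).card : ℝ) := by
  obtain ⟨s, g, hs, hg, rfl⟩ := exists_sqf d hd
  set e := s11 s with he
  have hes : Squarefree e := s11_sqf hs
  have he0 : e ≠ 0 := hes.ne_zero
  have hs0 : s ≠ 0 := hs.ne_zero
  -- `s e = -17 w²`
  obtain ⟨w, hw0, hw⟩ : ∃ w : ℤ, w ≠ 0 ∧ s * e = -17 * w ^ 2 := by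
    rw [he]
    unfold s11
    split_ifs with h
    · obtain ⟨c, rfl⟩ := h
      rw [Int.mul_ediv_cancel_left _ (by norm_num)]
      refine ⟨c, ?_, by ring⟩
      rintro rfl
      exact hs0 (by norm_num)
    · exact ⟨s, hs0, by ring⟩
  set E₀ := Dm e with hE₀
  obtain ⟨δ, t, hδ, ht0, ht⟩ : ∃ δ t : ℤ, E₀ = δ * e ∧ t ≠ 0 ∧ δ * t ^ 2 = 4 := by
    rw [hE₀]
    unfold Dm
    split_ifs
    · exact ⟨1, 2, by ring, by norm_num, by norm_num⟩
    · exact ⟨4, 1, by ring, by norm_num, by norm_num⟩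
  have hδ0 : δ ≠ 0 := by rintro rfl; norm_num at ht
  have hE₀0 : E₀ ≠ 0 := by rw [hδ]; exact mul_ne_zero hδ0 he0
  set N : ℕ := 136 * e.natAbs with hN
  have hN0 : 0 < N := Nat.mul_pos (by norm_num) (Int.natAbs_pos.2 he0)
  obtain ⟨c, hc, Y₀, hY⟩ := count11 hA hH hLT hF hmod hN0 (Dvd.intro _ rfl)
  set K := E₀.natAbs with hK
  have hK0 : 0 < K := Int.natAbs_pos.2 hE₀0
  refine ⟨c / (2 * K), by positivity, K * (Y₀ + 1), fun X hX => ?_⟩
  set Y := X / K with hYdef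
  have hYY₀ : Y₀ + 1 ≤ Y := by
    rw [hYdef, Nat.le_div_iff_mul_le hK0]
    linarith [Nat.mul_comm K (Y₀ + 1)]
  have hYX : K * Y ≤ X := Nat.mul_div_le X K
  have hXY : X < K * (Y + 1) := by
    have := Nat.lt_mul_div_succ X hK0
    simpa using this
  have h1 := hY Y (by omega)
  have h2 : c / (2 * K) * X ≤ c * Y := by
    have h3 : (X : ℝ) ≤ K * (Y + 1) := by exact_mod_cast hXY.le
    have h4 : (1 : ℝ) ≤ Y := by exact_mod_cast (by omega : 1 ≤ Y)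
    have h5 : (0 : ℝ) < K := by exact_mod_cast hK0
    rw [div_mul_eq_mul_div, div_le_iff₀ (by positivity)]
    have h6 : (X : ℝ) ≤ K * (2 * Y) := h3.trans (by gcongr; linarith)
    calc c * X ≤ c * (K * (2 * Y)) := by gcongr
      _ = _ := by ring
  refine h2.trans (h1.trans ?_)
  refine Nat.cast_le.2 (Finset.card_le_card_of_injOn (fun m => m * E₀) ?_ ?_)
  · intro m hm
    have hm' : m ∈ Gd a₀ b₀ N Y := hm
    let I : Crv := crv11 hA hH
    unfold Gd at hm'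
    rw [Finset.mem_filter, mem_sqZ] at hm'
    obtain ⟨⟨g1, g2⟩, g3, g5, g6⟩ := hm'
    have hNm : (N : ℤ) ∣ m - 1 := Int.dvd_self_sub_of_emod_eq g5
    have h88 : (136 : ℤ) ∣ m - 1 := Dvd.dvd.trans (by rw [hN]; exact ⟨e.natAbs, by push_cast; ring⟩) hNm
    have hem : e ∣ m - 1 := by
      refine Dvd.dvd.trans ?_ hNm
      rw [hN]
      push_cast
      exact Dvd.dvd.mul_left ((dvd_abs e e).2 dvd_rfl) 136
    have hcop : IsCoprime m e := by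
      obtain ⟨k, hk⟩ := hem
      exact ⟨1, -k, by linear_combination hk⟩
    have hme : Squarefree (m * e) := by
      rw [squarefree_mul_iff]
      exact ⟨hcop.isRelPrime, g2, hes⟩
    have hm4 : m % 4 = 1 := by omega
    have hDm : Dm (m * e) = m * E₀ := by
      rw [hE₀]
      unfold Dm
      have : (m * e) % 4 = e % 4 := by
        rw [Int.mul_emod, hm4, one_mul, Int.emod_emod_of_dvd _ (dvd_refl 4)]
      rw [this]
      split_ifs <;> ring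
    have hne : m * e ≠ 1 := by
      intro h
      have h8 := Int.eq_one_or_neg_one_of_mul_eq_one h
      omega
    have hfd := isFund_Dm hme hne
    rw [hDm] at hfd
    change m * E₀ ∈ _
    rw [Finset.mem_coe, Finset.mem_filter]
    unfold P004.Fam
    rw [Finset.mem_filter, Finset.mem_Icc]
    have hm0 : m ≠ 0 := by omega
    refine ⟨⟨?_, hfd⟩, ?_⟩
    · have h9 : (m * E₀).natAbs ≤ X := by
        rw [Int.natAbs_mul]
        calc m.natAbs * E₀.natAbs ≤ Y * K := Nat.mul_le_mul (by omega) le_rfl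
          _ = K * Y := by ring
          _ ≤ X := hYX
      omega
    · rw [← g6]
      apply aRk_congr
      intro n
      have e1 : a₀ * (s * g ^ 2) ^ 2 * (m * E₀) ^ 2 = a₀ * (s * g ^ 2 * (m * E₀)) ^ 2 := by
        ring
      have e2 : b₀ * (s * g ^ 2) ^ 3 * (m * E₀) ^ 3 =
          b₀ * (s * g ^ 2 * (m * E₀)) ^ 3 := by ring
      rw [e1, e2]
      refine hIso _ _ t (g * w) ?_ (by omega) ht0 (mul_ne_zero hg hw0) ?_ n
      · exact mul_ne_zero (mul_ne_zero hs0 (pow_ne_zero _ hg)) (mul_ne_zero hm0 hE₀0)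
      · rw [hδ]
        linear_combination (g ^ 2 * m * δ * t ^ 2) * hw + (-17 * w ^ 2 * g ^ 2 * m) * ht
  · intro m _ m' _ h
    exact mul_right_cancel₀ hE₀0 h

end P004H26
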